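import Vale.Agent.P216M.Star
import Vale.Agent.P216.B7H550.Z1
import Vale.Agent.P216.H494.CovMain

/-!
# Finite coverings of closed three-manifolds have no rank two
-/

set_option linter.all false

open Set Topology Bundle Manifold
open scoped ContDiff

namespace Vale.Agent.P216M

open Vale.Agent.P216 Vale.Agent.P216.H126U Vale.Agent.P216.B7H550 Vale.Agent.P216.H494

/-- No subgroup of finite index is an extension of `(ℤ/p)²` by a group without finite commutative
quotients. -/
def StarG (G : Type) [Group G] : Prop :=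
  ∀ (H : Type) [Group H] (j : H →* G), Function.Injective j → j.range.FiniteIndex →
    ∀ (p : ℕ) [Fact p.Prime] (q : H →* Sq p), Function.Surjective q → ¬ NoAb q.ker

theorem starG_three (E : Type) [NormedAddCommGroup E] [NormedSpace ℝ E] [FiniteDimensional ℝ E]
    {M : Type} [MetricSpace M] [CompactSpace M] [ChartedSpace E M] [IsManifold 𝓘(ℝ, E) ∞ M]
    [RiemannianBundle (fun x : M => TangentSpace 𝓘(ℝ, E) x)]
    [IsContMDiffRiemannianBundle 𝓘(ℝ, E) ∞ E (fun x : M => TangentSpace 𝓘(ℝ, E) x)]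
    [IsRiemannianManifold 𝓘(ℝ, E) M] (h3 : Module.finrank ℝ E = 3) (x₀ : M) :
    StarG (FundamentalGroup M x₀) := by
  intro H _ j₀ hj₀ hfi p _ q hq hR
  have : Nonempty M := ⟨x₀⟩
  have : PathConnectedSpace M := pathConnectedSpace_of_riemannian E
  choose ψ hψ hψ' using fun x : M => exists_param (V := E) x
  let A : Atlas (Module.finrank ℝ E) M M := ⟨ψ, hψ, fun x => ⟨x, hψ' x⟩⟩
  let j : H →* Pi1 x₀ := (fgEquiv x₀ : FundamentalGroup M x₀ →* Pi1 x₀).comp j₀
  have hj : Function.Injective j := (fgEquiv x₀).injective.comp hj₀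
  have hfi' : j.range.FiniteIndex := by
    refine ⟨?_⟩
    have h1 : j.range = j₀.range.map (fgEquiv x₀ : FundamentalGroup M x₀ →* Pi1 x₀) :=
      MonoidHom.range_comp _ _
    rw [h1, Subgroup.index_map_equiv j₀.range (fgEquiv x₀)]
    exact hfi.index_ne_zero
  let H' := j.range
  let P : UX A x₀ → TX A x₀ (Qt H') := PP A x₀ (q0 H')
  have hPl : IsLocalHomeomorph P := PP_loc A x₀ (q0 H')
  have hPs : Function.Surjective P := PP_surj A x₀ (q0 H') (q0_trans H')
  have hcov : IsCoveringMap (pr2 A x₀ (Qt H')) := pr2_cov A x₀ (Qt H')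
  haveI : SimplyConnectedSpace (UX A x₀) := sc
  haveI : T2Space (UX A x₀) := t2
  haveI : LocallyPathConnectedSpace (UX A x₀) :=
    ChartedSpace.locallyPathConnectedSpace E
      (Cov (pr_cov (A := A) (x₀ := x₀)).isLocalHomeomorph)
  haveI : CompactSpace (TX A x₀ (Qt H')) := by
    refine compactSpace_of_covering hcov fun x => ?_
    have : Finite (Qt H') := Qt_finite H'
    let g : (pr2 A x₀ (Qt H')) ⁻¹' {x} → Qt H' := fun e => e.1.2
    refine Finite.of_injective g ?_
    rintro ⟨⟨y, v⟩, hy⟩ ⟨⟨z, w⟩, hz⟩ hvw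
    obtain rfl : y = x := hy
    obtain rfl : z = y := hz
    have h1 : v = w := hvw
    subst h1
    rfl
  haveI : T2Space (TX A x₀ (Qt H')) := by
    refine ⟨fun e e' hne => ?_⟩
    by_cases h1 : e.1 = e'.1
    · exact hcov.isSeparatedMap e e' h1 hne
    · obtain ⟨u, v, hu, hv, hxu, hxv, huv⟩ := t2_separation h1
      exact ⟨(pr2 A x₀ (Qt H')) ⁻¹' u, (pr2 A x₀ (Qt H')) ⁻¹' v,
        hu.preimage (pr2 A x₀ (Qt H')).continuous,
        hv.preimage (pr2 A x₀ (Qt H')).continuous, hxu, hxv, huv.preimage _⟩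
  haveI : ConnectedSpace (TX A x₀ (Qt H')) := hPs.connectedSpace hPl.continuous
  have hf : IsLocalHomeomorph (pr2 A x₀ (Qt H')) := hcov.isLocalHomeomorph
  letI := Cov.metric E hf
  haveI : LocallyConnectedSpace (Cov hf) := ChartedSpace.locallyConnectedSpace E (Cov hf)
  letI : MulAction H (UX A x₀) := MulAction.compHom (UX A x₀) j
  let g : Gal H (UX A x₀) (Cov hf) :=
    { P := P
      loc := hPl
      surj := hPs
      smul_cont := fun h => smul_cont (j h)
      P_smul := fun h e => PP_smul A x₀ (q0 H') (j h) ((q0_stab H' _).2 ⟨h, rfl⟩) e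
      orb := fun e e' h => by
        obtain ⟨γ, h1, h2⟩ := PP_eq A x₀ (q0 H') e e' h
        obtain ⟨h, rfl⟩ := (q0_stab H' γ).1 h1
        exact ⟨h, h2⟩
      free := fun h e he => hj (by rw [map_one]; exact smul_free (j h) e he) }
  exact star g (h3 ▸ Ch2.D907.cub E (Cov hf)) hq hR

end Vale.Agent.P216M
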