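import Mathlib.FieldTheory.Finite.Basic
import Mathlib.Algebra.Field.ZMod
import Mathlib.Algebra.Group.MinimalAxioms
import Mathlib.LinearAlgebra.FiniteDimensional.Lemmas
import Mathlib.GroupTheory.OrderOfElement
import Mathlib.Tactic.LinearCombination
import Mathlib.Tactic.Group

/-!
# Three independent central extensions of `(ℤ/p)²` by `ℤ/p`
-/

set_option linter.all false

namespace Vale.Agent.P216M

/-- Normalised two-cocycles. -/
structure Cocy (A k : Type) [Group A] [AddCommGroup k] where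
  f : A → A → k
  l : ∀ g, f 1 g = 0
  r : ∀ g, f g 1 = 0
  co : ∀ g h l, f h l - f (g * h) l + f g (h * l) - f g h = 0

/-- The central extension. -/
@[ext] structure CExt {A k : Type} [Group A] [AddCommGroup k] (σ : Cocy A k) where
  s : k
  g : A

section

variable {A k : Type} [Group A] [AddCommGroup k] {σ : Cocy A k}

instance : Mul (CExt σ) := ⟨fun x y => ⟨x.s + y.s + σ.f x.g y.g, x.g * y.g⟩⟩
instance : One (CExt σ) := ⟨⟨0, 1⟩⟩
instance : Inv (CExt σ) := ⟨fun x => ⟨-x.s - σ.f x.g⁻¹ x.g, x.g⁻¹⟩⟩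

theorem CExt.mul_s (x y : CExt σ) : (x * y).s = x.s + y.s + σ.f x.g y.g := rfl
theorem CExt.mul_g (x y : CExt σ) : (x * y).g = x.g * y.g := rfl

instance : Group (CExt σ) := Group.ofLeftAxioms
  (fun x y z => by
    ext
    · have := σ.co x.g y.g z.g
      simp only [CExt.mul_s, CExt.mul_g]
      rw [← sub_eq_zero, ← neg_eq_zero, ← this]
      abel
    · simp only [CExt.mul_g, mul_assoc])
  (fun x => by
    ext
    · show 0 + x.s + σ.f 1 x.g = x.s
      rw [σ.l, zero_add, add_zero]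
    · exact one_mul _)
  (fun x => by
    ext
    · show -x.s - σ.f x.g⁻¹ x.g + x.s + σ.f x.g⁻¹ x.g = 0
      abel
    · exact inv_mul_cancel _)

/-- The projection. -/
def CExt.pr (σ : Cocy A k) : CExt σ →* A := MonoidHom.mk' (fun x => x.g) fun _ _ => rfl

end

/-- The group `(ℤ/p)²`. -/
abbrev Sq (p : ℕ) : Type := Multiplicative (ZMod p × ZMod p)

section

variable {p : ℕ} [hp : Fact p.Prime]

/-- first coordinate -/
def cX (g : Sq p) : ZMod p := (Multiplicative.toAdd g).1
/-- second coordinate -/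
def cY (g : Sq p) : ZMod p := (Multiplicative.toAdd g).2

theorem cX_mul (g h : Sq p) : cX (g * h) = cX g + cX h := rfl
theorem cY_mul (g h : Sq p) : cY (g * h) = cY g + cY h := rfl
theorem cX_one : cX (1 : Sq p) = 0 := rfl
theorem cY_one : cY (1 : Sq p) = 0 := rfl

theorem sq_ext {g h : Sq p} (h1 : cX g = cX h) (h2 : cY g = cY h) : g = h :=
  Multiplicative.toAdd.injective (Prod.ext h1 h2)

theorem cX_pow (g : Sq p) (n : ℕ) : cX (g ^ n) = n * cX g := by
  induction n with
  | zero => rw [pow_zero, cX_one, Nat.cast_zero, zero_mul]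
  | succ n ih => rw [pow_succ, cX_mul, ih]; push_cast; ring

theorem cY_pow (g : Sq p) (n : ℕ) : cY (g ^ n) = n * cY g := by
  induction n with
  | zero => rw [pow_zero, cY_one, Nat.cast_zero, zero_mul]
  | succ n ih => rw [pow_succ, cY_mul, ih]; push_cast; ring

theorem sq_pow (g : Sq p) : g ^ p = 1 :=
  sq_ext (by rw [cX_pow, cX_one, ZMod.natCast_self, zero_mul])
    (by rw [cY_pow, cY_one, ZMod.natCast_self, zero_mul])

/-- the carry -/
def car (i j : ZMod p) : ZMod p := (((i.val + j.val) / p : ℕ) : ZMod p)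

theorem car_zero_left (j : ZMod p) : car 0 j = 0 := by
  rw [car, ZMod.val_zero, zero_add, Nat.div_eq_of_lt (ZMod.val_lt j), Nat.cast_zero]

theorem car_zero_right (j : ZMod p) : car j 0 = 0 := by
  rw [car, ZMod.val_zero, add_zero, Nat.div_eq_of_lt (ZMod.val_lt j), Nat.cast_zero]

theorem div_aux (m c : ℕ) : m / p + (m % p + c) / p = (m + c) / p := by
  conv_rhs => rw [← Nat.div_add_mod m p, add_assoc, Nat.mul_add_div hp.out.pos]

theorem car_co (i j l : ZMod p) : car j l - car (i + j) l + car i (j + l) - car i j = 0 := by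
  have h1 := div_aux (p := p) (i.val + j.val) l.val
  have h2 := div_aux (p := p) (j.val + l.val) i.val
  rw [← ZMod.val_add] at h1 h2
  have h3 : (j.val + l.val) / p + (i.val + (j + l).val) / p =
      (i.val + j.val) / p + ((i + j).val + l.val) / p := by
    rw [h1, add_comm i.val (j + l).val, h2]
    congr 1
    ring
  have h4 := congrArg (fun n : ℕ => (n : ZMod p)) h3
  simp only [Nat.cast_add] at h4
  unfold car
  linear_combination h4

theorem car_one {n : ℕ} (hn : n < p) : car (n : ZMod p) 1 = (((n + 1) / p : ℕ) : ZMod p) := by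
  haveI : Fact (1 < p) := ⟨hp.out.one_lt⟩
  rw [car, ZMod.val_one, ZMod.val_cast_of_lt hn]

/-- The cocycles. -/
def sig (α β γ : ZMod p) : Cocy (Sq p) (ZMod p) where
  f g h := α * (cX g * cY h) + β * car (cX g) (cX h) + γ * car (cY g) (cY h)
  l g := by rw [cX_one, cY_one, car_zero_left, car_zero_left]; ring
  r g := by rw [cX_one, cY_one, car_zero_right, car_zero_right]; ring
  co g h l := by
    simp only [cX_mul, cY_mul]
    linear_combination β * car_co (cX g) (cX h) (cX l) + γ * car_co (cY g) (cY h) (cY l)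

variable {H : Type} [Group H]

/-- No homomorphism to a finite commutative group. -/
def NoAb (R : Type) [Group R] : Prop :=
  ∀ (B : Type) [CommGroup B] [Finite B] (ψ : R →* B), ψ = 1

theorem carry_aux {t : H → ZMod p} {h : H} {β : ZMod p} (h0 : t 1 = 0)
    (hs : ∀ n : ℕ, t (h ^ (n + 1)) = t (h ^ n) + t h + β * car (n : ZMod p) 1)
    (hp' : t (h ^ p) = 0) : β = 0 := by
  have key : ∀ n : ℕ, n < p → t (h ^ n) = n * t h := by
    intro n
    induction n with
    | zero => intro _; rw [pow_zero, h0, Nat.cast_zero, zero_mul]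
    | succ n ih =>
      intro hn
      rw [hs, ih (by omega), car_one (by omega), Nat.div_eq_of_lt hn]
      push_cast
      ring
  obtain ⟨m, hm⟩ : ∃ m, p = m + 1 := ⟨p - 1, by have := hp.out.pos; omega⟩
  have h1 := hs m
  rw [← hm, hp', key m (by omega), car_one (by omega), ← hm, Nat.div_self hp.out.pos] at h1
  have h2 : ((m : ZMod p) + 1) = 0 := by
    have := ZMod.natCast_self p
    rw [← this]
    conv_rhs => rw [show ((p : ℕ) : ZMod p) = ((m + 1 : ℕ) : ZMod p) by rw [← hm]]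
    push_cast
    ring
  rw [Nat.cast_one] at h1
  linear_combination -h1 - t h * h2

/-- The extensions are not split. -/
theorem sig_zero {π : H →* Sq p} (hπ : Function.Surjective π) (hR : NoAb π.ker)
    {α β γ : ZMod p} (φ : H →* CExt (sig α β γ)) (hφ : ∀ h, (φ h).g = π h) :
    α = 0 ∧ β = 0 ∧ γ = 0 := by
  have hm : ∀ h h', (φ (h * h')).s = (φ h).s + (φ h').s + (sig α β γ).f (π h) (π h') := by
    intro h h'
    rw [map_mul, CExt.mul_s, hφ, hφ]
  have hk : ∀ h, π h = 1 → (φ h).s = 0 := by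
    intro h hh
    let ψ : π.ker →* Multiplicative (ZMod p) := MonoidHom.mk'
      (fun x => Multiplicative.ofAdd (φ x).s) fun x y => by
        have hx : π x = 1 := x.2
        rw [Subgroup.coe_mul, hm, hx, (sig α β γ).l, add_zero, ofAdd_add]
    have h1 := DFunLike.congr_fun (hR _ ψ) ⟨h, hh⟩
    exact h1
  have he : ∀ h h', π h = π h' → (φ h).s = (φ h').s := by
    intro h h' hh
    have h1 : π (h⁻¹ * h') = 1 := by rw [map_mul, map_inv, hh, inv_mul_cancel]
    have h2 := hm h (h⁻¹ * h')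
    rw [mul_inv_cancel_left, hk _ h1, h1, (sig α β γ).r, add_zero, add_zero] at h2
    exact h2.symm
  obtain ⟨a, ha⟩ := hπ (Multiplicative.ofAdd (1, 0))
  obtain ⟨b, hb⟩ := hπ (Multiplicative.ofAdd (0, 1))
  have a1 : cX (π a) = 1 := by rw [ha]; rfl
  have a2 : cY (π a) = 0 := by rw [ha]; rfl
  have b1 : cX (π b) = 0 := by rw [hb]; rfl
  have b2 : cY (π b) = 1 := by rw [hb]; rfl
  refine ⟨?_, ?_, ?_⟩
  · have h1 := he (a * b) (b * a) (by rw [map_mul, map_mul, mul_comm])
    rw [hm, hm] at h1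
    simp only [sig, a1, a2, b1, b2, car_zero_left, car_zero_right] at h1
    linear_combination h1
  · refine carry_aux (t := fun h => (φ h).s) (h := a) (hk 1 (map_one _)) (fun n => ?_)
      (hk _ (by rw [map_pow, sq_pow]))
    show (φ (a ^ (n + 1))).s = (φ (a ^ n)).s + (φ a).s + _
    rw [pow_succ, hm, map_pow π]
    simp only [sig, cX_pow, cY_pow, a1, a2, car_zero_right, mul_zero, mul_one]
    ring
  · refine carry_aux (t := fun h => (φ h).s) (h := b) (hk 1 (map_one _)) (fun n => ?_)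
      (hk _ (by rw [map_pow, sq_pow]))
    show (φ (b ^ (n + 1))).s = (φ (b ^ n)).s + (φ b).s + _
    rw [pow_succ, hm, map_pow π]
    simp only [sig, cX_pow, cY_pow, b1, b2, car_zero_right, mul_zero, mul_one]
    ring

/-- The homomorphisms to `ℤ/p`. -/
theorem hom_eq {π : H →* Sq p} (hπ : Function.Surjective π) (hR : NoAb π.ker)
    (φ : H →* Multiplicative (ZMod p)) :
    ∃ α β : ZMod p, ∀ h, Multiplicative.toAdd (φ h) = α * cX (π h) + β * cY (π h) := by
  have hk : ∀ h, π h = 1 → φ h = 1 := fun h hh =>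
    DFunLike.congr_fun (hR _ (φ.comp π.ker.subtype)) ⟨h, hh⟩
  obtain ⟨a, ha⟩ := hπ (Multiplicative.ofAdd (1, 0))
  obtain ⟨b, hb⟩ := hπ (Multiplicative.ofAdd (0, 1))
  have a1 : cX (π a) = 1 := by rw [ha]; rfl
  have a2 : cY (π a) = 0 := by rw [ha]; rfl
  have b1 : cX (π b) = 0 := by rw [hb]; rfl
  have b2 : cY (π b) = 1 := by rw [hb]; rfl
  refine ⟨Multiplicative.toAdd (φ a), Multiplicative.toAdd (φ b), fun h => ?_⟩
  have h1 : π (a ^ (cX (π h)).val * b ^ (cY (π h)).val) = π h := by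
    refine sq_ext ?_ ?_
    · rw [map_mul, cX_mul, map_pow, map_pow, cX_pow, cX_pow, a1, b1, ZMod.natCast_zmod_val]
      ring
    · rw [map_mul, cY_mul, map_pow, map_pow, cY_pow, cY_pow, a2, b2, ZMod.natCast_zmod_val,
        ZMod.natCast_zmod_val]
      ring
  have h2 := hk ((a ^ (cX (π h)).val * b ^ (cY (π h)).val)⁻¹ * h) (by
    rw [map_mul, map_inv, h1, inv_mul_cancel])
  rw [map_mul, map_inv, inv_mul_eq_one] at h2
  rw [← h2, map_mul, map_pow, map_pow, toAdd_mul, toAdd_pow, toAdd_pow, nsmul_eq_mul, nsmul_eq_mul,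
    ZMod.natCast_zmod_val, ZMod.natCast_zmod_val]
  ring

/-- No homomorphism to the units. -/
theorem hom_units {π : H →* Sq p} (hR : NoAb π.ker) (φ : H →* (ZMod p)ˣ) : φ = 1 := by
  have hk : ∀ h, π h = 1 → φ h = 1 := fun h hh =>
    DFunLike.congr_fun (hR _ (φ.comp π.ker.subtype)) ⟨h, hh⟩
  ext h
  have h1 := hk (h ^ p) (by rw [map_pow, sq_pow])
  rw [map_pow] at h1
  have h2 := congrArg (fun u : (ZMod p)ˣ => (u : ZMod p)) h1
  simp only [Units.val_pow_eq_pow_val, ZMod.pow_card, Units.val_one] at h2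
  rw [h2]
  rfl

theorem exists_dep {k : Type} [Field k] (a₁ a₂ a₃ b₁ b₂ b₃ : k) :
    ∃ α β γ : k, ¬ (α = 0 ∧ β = 0 ∧ γ = 0) ∧ α * a₁ + β * a₂ + γ * a₃ = 0 ∧
      α * b₁ + β * b₂ + γ * b₃ = 0 := by
  let L : (k × k × k) →ₗ[k] (k × k) :=
    { toFun := fun v => (v.1 * a₁ + v.2.1 * a₂ + v.2.2 * a₃, v.1 * b₁ + v.2.1 * b₂ + v.2.2 * b₃)
      map_add' := fun v w => by ext <;> simp <;> ring
      map_smul' := fun c v => by ext <;> simp <;> ring }
  have h1 : LinearMap.ker L ≠ ⊥ := L.ker_ne_bot_of_finrank_lt (by simp)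
  obtain ⟨v, hv, hv0⟩ := Submodule.exists_mem_ne_zero_of_ne_bot h1
  have h2 : L v = 0 := hv
  refine ⟨v.1, v.2.1, v.2.2, fun h => hv0 (Prod.ext h.1 (Prod.ext h.2.1 h.2.2)), ?_, ?_⟩
  · exact congrArg Prod.fst h2
  · exact congrArg Prod.snd h2

end

end Vale.Agent.P216M
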