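import Vale.Agent.P216M.Orient
import Vale.Agent.P216.D246.Mono

/-!
# Quotients of simply connected spaces by free actions: the universal cocycle

`Gal H U N`: `N` is the quotient of `U` by a free action of `H`, the projection is a local
homeomorphism.  If `U` is simply connected, all the cocycles on `N` come from homomorphisms of `H`.
-/

set_option linter.all false

open Set Filter Topology Metric

namespace Vale.Agent.P216M

/-- `N` is the quotient of `U` by a free action of `H`. -/
structure Gal (H U N : Type) [Group H] [TopologicalSpace U] [MulAction H U]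
    [TopologicalSpace N] where
  P : U → N
  loc : IsLocalHomeomorph P
  surj : Function.Surjective P
  smul_cont : ∀ h : H, Continuous fun e : U => h • e
  P_smul : ∀ (h : H) (e : U), P (h • e) = P e
  orb : ∀ e e' : U, P e = P e' → ∃ h : H, h • e = e'
  free : ∀ (h : H) (e : U), h • e = e → h = 1

/-- The universal property of a cocycle `c` with values in `H`. -/
structure Univ {H N : Type} [Group H] [MetricSpace N] (c : N → N → H) (r : ℝ) : Prop where
  pos : 0 < r
  self : ∀ a, c a a = 1
  mul : ∀ a b d, dist a b < r → dist a d < r → dist b d < r → c a b * c b d = c a d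
  up : ∀ ε > 0, ∃ δ > 0, ∀ (A : Type) [Group A] (f : N → N → A),
    (∀ a b d, dist a b < ε → dist a d < ε → dist b d < ε → f a b * f b d = f a d) →
    ∃ (φ : H →* A) (Θ : N → A), ∀ a b, dist a b < δ → f a b = Θ a * φ (c a b) * (Θ b)⁻¹
  uq : ∀ (A : Type) [Group A] (χ : H →* A) (Θ : N → A), ∀ ε > 0,
    (∀ a b, dist a b < ε → χ (c a b) = Θ a * (Θ b)⁻¹) → χ = 1

theorem exists_unif_conn {N : Type} [MetricSpace N] [CompactSpace N] [LocallyConnectedSpace N]
    {ε : ℝ} (hε : 0 < ε) : ∃ δ > 0, ∀ a b : N, dist a b < δ →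
      ∃ W : Set N, IsPreconnected W ∧ a ∈ W ∧ b ∈ W ∧ W ⊆ ball a ε := by
  obtain ⟨δ, hδ, h⟩ := lebesgue_number_lemma_of_metric (s := (univ : Set N)) isCompact_univ
    (c := fun x : N => connectedComponentIn (ball x (ε / 2)) x)
    (fun x => isOpen_ball.connectedComponentIn)
    (fun x _ => mem_iUnion.2 ⟨x, mem_connectedComponentIn (mem_ball_self (by positivity))⟩)
  refine ⟨δ, hδ, fun a b hab => ?_⟩
  obtain ⟨x, hx⟩ := h a (mem_univ a)
  have ha := hx (mem_ball_self hδ)
  refine ⟨_, isPreconnected_connectedComponentIn, ha, hx (by rwa [mem_ball, dist_comm]),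
    fun y hy => ?_⟩
  have h1 := connectedComponentIn_subset _ _ ha
  have h2 := connectedComponentIn_subset _ _ hy
  rw [mem_ball] at h1 h2 ⊢
  linarith [dist_triangle_right y a x]

namespace Gal

variable {H U N : Type} [Group H] [TopologicalSpace U] [MulAction H U]

theorem cancel [TopologicalSpace N] (g : Gal H U N) {h h' : H} {e : U} (hh : h • e = h' • e) :
    h = h' := by
  have h1 : (h'⁻¹ * h) • e = e := by rw [mul_smul, hh, inv_smul_smul]
  have h2 := g.free _ _ h1
  exact (inv_mul_eq_one.1 h2).symm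

variable [SimplyConnectedSpace U] [LocallyPathConnectedSpace U]

/-- Cocycles of open coverings. -/
theorem cech [TopologicalSpace N] (g : Gal H U N) {A ι : Type} [Group A] (V : ι → Set N)
    (hV : ∀ i, IsOpen (V i)) (cov : ∀ b, ∃ i, b ∈ V i) (T : ι → ι → N → A)
    (hloc : ∀ i j, ∀ b ∈ V i ∩ V j, ∀ᶠ b' in 𝓝 b, T i j b' = T i j b)
    (hself : ∀ i, ∀ b ∈ V i, T i i b = 1)
    (hco : ∀ i j l, ∀ b ∈ V i ∩ V j ∩ V l, T i j b * T j l b = T i l b) :
    ∃ (σ : ι → U → A) (Φ : H →* A),
      (∀ i e, g.P e ∈ V i → ∀ᶠ e' in 𝓝 e, σ i e' = σ i e) ∧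
      (∀ i j e, g.P e ∈ V i → g.P e ∈ V j → σ i e = T i j (g.P e) * σ j e) ∧
      ∀ i (h : H) e, g.P e ∈ V i → σ i (h • e) = σ i e * (Φ h)⁻¹ := by
  have hP := g.loc.continuous
  obtain ⟨σ, h1, h2⟩ := P216.D246.exists_section (B := U) (G := A) (fun i => g.P ⁻¹' V i)
    (fun i => (hV i).preimage hP) (fun e => cov (g.P e)) (fun i j e => T i j (g.P e))
    (fun i j e he => hP.continuousAt.eventually (hloc i j (g.P e) he))
    (fun i e he => hself i _ he) (fun i j l e he => hco i j l _ he)
  choose ix hix using cov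
  let F : H → U → A := fun h e => (σ (ix (g.P e)) (h • e))⁻¹ * σ (ix (g.P e)) e
  have hF : ∀ h e i, g.P e ∈ V i → F h e = (σ i (h • e))⁻¹ * σ i e := by
    intro h e i hi
    have a1 := h2 (ix (g.P e)) i e ⟨hix _, hi⟩
    have a2 := h2 (ix (g.P e)) i (h • e) ⟨by
      show g.P (h • e) ∈ V _
      rw [g.P_smul]; exact hix _, by
      show g.P (h • e) ∈ V _
      rw [g.P_smul]; exact hi⟩
    show (σ (ix (g.P e)) (h • e))⁻¹ * σ (ix (g.P e)) e = _
    rw [a1, a2, g.P_smul]
    group
  have hFc : ∀ h e e', F h e = F h e' := by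
    intro h
    have hlc : IsLocallyConstant (F h) := by
      rw [IsLocallyConstant.iff_eventually_eq]
      intro e
      have hi := hix (g.P e)
      have b1 := h1 _ e hi
      have b2 := (g.smul_cont h).continuousAt.eventually (h1 (ix (g.P e)) (h • e) (by
        show g.P (h • e) ∈ V _
        rw [g.P_smul]; exact hi))
      have b3 := hP.continuousAt.eventually ((hV (ix (g.P e))).mem_nhds hi)
      filter_upwards [b1, b2, b3] with e' c1 c2 c3
      rw [hF h e' _ c3, c1, c2]
    exact fun e e' => hlc.apply_eq_of_preconnectedSpace e e'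
  obtain ⟨e₀⟩ : Nonempty U := inferInstance
  have key : ∀ i (h : H) e, g.P e ∈ V i → σ i (h • e) = σ i e * (F h e₀)⁻¹ := by
    intro i h e hi
    rw [hFc h e₀ e, hF h e i hi]
    group
  refine ⟨σ, MonoidHom.mk' (fun h => F h e₀) fun h h' => ?_, fun i e he => h1 i e he,
    fun i j e hi hj => h2 i j e ⟨hi, hj⟩, key⟩
  have hi := hix (g.P e₀)
  have a1 := key _ (h * h') e₀ hi
  have a2 := key (ix (g.P e₀)) h (h' • e₀) (by rw [g.P_smul]; exact hi)
  rw [key _ h' e₀ hi, ← mul_smul, a1, mul_assoc, ← mul_inv_rev] at a2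
  exact inv_injective (mul_left_cancel a2)

/-- If `H` has no homomorphism to `A`, all the cocycles are coboundaries. -/
theorem hasSec [TopologicalSpace N] (g : Gal H U N) {A : Type} [Group A]
    (hA : ∀ Φ : H →* A, Φ = 1) : HasSec N A := by
  intro ι V hV cov T hloc hself hco
  obtain ⟨σ, Φ, h1, h2, h3⟩ := g.cech V hV cov T hloc hself hco
  rw [hA Φ] at h3
  choose s hs using g.surj
  refine ⟨fun i b => σ i (s b), fun i b hb => ?_, fun i j b hb => ?_⟩
  · have hb' : g.P (s b) ∈ V i := by rwa [hs]
    have a1 := (h1 i (s b) hb').and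
      (g.loc.continuous.continuousAt.eventually ((hV i).mem_nhds hb'))
    have a2 := g.loc.isOpenMap.image_mem_nhds a1
    rw [hs] at a2
    filter_upwards [a2] with b' hb'
    obtain ⟨e', ⟨c1, c2⟩, rfl⟩ := hb'
    obtain ⟨h, hh⟩ := g.orb e' (s (g.P e')) (hs _).symm
    rw [← hh, h3 i h e' c2, c1]
    simp
  · have := h2 i j (s b) (by rw [hs]; exact hb.1) (by rw [hs]; exact hb.2)
    rwa [hs] at this

/-- **The universal cocycle.** -/
theorem exists_univ [T2Space U] [MetricSpace N] [CompactSpace N] [LocallyConnectedSpace N]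
    (g : Gal H U N) : ∃ (c : N → N → H) (r : ℝ), Univ c r := by
  have hP := g.loc.continuous
  choose s₀ hs₀ using g.surj
  choose φ hφ hφ' using g.loc
  obtain ⟨ρ, hρ, hL⟩ := lebesgue_number_lemma_of_metric (s := (univ : Set N)) isCompact_univ
    (c := fun x : N => (φ (s₀ x)).target) (fun x => (φ (s₀ x)).open_target)
    (fun x _ => mem_iUnion.2 ⟨x, by
      have := (φ (s₀ x)).map_source (hφ (s₀ x))
      rwa [← hφ', hs₀] at this⟩)
  choose ix hix using fun a => hL a (mem_univ a)
  let sec : N → N → U := fun a => (φ (s₀ (ix a))).symm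
  have hsc : ∀ a, ContinuousOn (sec a) (ball a ρ) := fun a =>
    (φ (s₀ (ix a))).continuousOn_symm.mono (hix a)
  have hsP : ∀ a, ∀ b ∈ ball a ρ, g.P (sec a b) = b := fun a b hb => by
    have := (φ (s₀ (ix a))).right_inv (hix a hb)
    rwa [← hφ'] at this
  have hss : ∀ a, g.P (sec a a) = a := fun a => hsP a a (mem_ball_self hρ)
  have hex : ∀ a b, ∃ h : H, dist a b < ρ → h • sec b b = sec a b := by
    intro a b
    by_cases hab : dist a b < ρ
    · obtain ⟨h, hh⟩ := g.orb (sec b b) (sec a b) (by
        rw [hss, hsP a b (by rwa [mem_ball, dist_comm])])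
      exact ⟨h, fun _ => hh⟩
    · exact ⟨1, fun h => absurd h hab⟩
  choose c hc using hex
  have hself : ∀ a, c a a = 1 := fun a => g.free _ _ (hc a a (by rwa [dist_self]))
  have hinj : IsLocallyInjective g.P := g.loc.isLocallyInjective
  have hsep : IsSeparatedMap g.P := T2Space.isSeparatedMap _
  obtain ⟨r, hr, hW⟩ := exists_unif_conn (N := N) (ε := ρ / 2) (by positivity)
  refine ⟨c, min r (ρ / 2), lt_min hr (by positivity), hself, fun a b d hab had hbd => ?_,
    fun ε hε => ?_, fun A _ χ Θ ε hε hχ => ?_⟩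
  · have e1 := hab.trans_le (min_le_right _ _)
    have e2 := had.trans_le (min_le_right _ _)
    have e3 := hbd.trans_le (min_le_right _ _)
    obtain ⟨W, w1, w2, w3, w4⟩ := hW b d (hbd.trans_le (min_le_left _ _))
    have w5 : W ⊆ ball b ρ := w4.trans (ball_subset_ball (by linarith))
    have w6 : W ⊆ ball a ρ := fun y hy => by
      have := w4 hy
      rw [mem_ball] at this ⊢
      linarith [dist_triangle y b a, dist_comm a b]
    have := hsep.eqOn_of_comp_eqOn hinj w1 (g₁ := fun y => c a b • sec b y) (g₂ := sec a)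
      ((g.smul_cont _).comp_continuousOn ((hsc b).mono w5)) ((hsc a).mono w6)
      (fun y hy => by
        show g.P (c a b • sec b y) = g.P (sec a y)
        rw [g.P_smul, hsP b y (w5 hy), hsP a y (w6 hy)]) w2 (hc a b (by linarith)) w3
    have h1 : c a b • sec b d = sec a d := this
    rw [← hc b d (by linarith), ← hc a d (by linarith), ← mul_smul] at h1
    exact g.cancel h1
  · obtain ⟨δ, hδ, hW⟩ := exists_unif_conn (N := N) (ε := min ρ (ε / 2))
      (lt_min hρ (by positivity))
    refine ⟨δ, hδ, fun A _ f hf => ?_⟩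
    have hd : ∀ {x y b : N}, b ∈ ball x (ε / 2) → b ∈ ball y (ε / 2) → dist x y < ε := by
      intro x y b h1 h2
      rw [mem_ball] at h1 h2
      linarith [dist_triangle_left x y b]
    obtain ⟨σ, Φ, h1, h2, h3⟩ := g.cech (fun x : N => ball x (ε / 2)) (fun _ => isOpen_ball)
      (fun b => ⟨b, mem_ball_self (by positivity)⟩) (fun x y _ => f x y)
      (fun _ _ _ _ => Eventually.of_forall fun _ => rfl)
      (fun x b hb => by
        have := hf x x x (by rwa [dist_self]) (by rwa [dist_self]) (by rwa [dist_self])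
        exact mul_eq_left.1 this)
      (fun x y z b hb => hf x y z (hd hb.1.1 hb.1.2) (hd hb.1.1 hb.2) (hd hb.1.2 hb.2))
    refine ⟨Φ, fun a => σ a (sec a a), fun a b hab => ?_⟩
    obtain ⟨W, w1, w2, w3, w4⟩ := hW a b hab
    have w5 : W ⊆ ball a ρ := w4.trans (ball_subset_ball (min_le_left _ _))
    have w6 : W ⊆ ball a (ε / 2) := w4.trans (ball_subset_ball (min_le_right _ _))
    have k1 : σ a (sec a a) = σ a (sec a b) := by
      letI : TopologicalSpace A := ⊥
      haveI : DiscreteTopology A := ⟨rfl⟩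
      refine w1.constant (f := fun y => σ a (sec a y)) (fun y hy => ?_) w2 w3
      have a1 := h1 a (sec a y) (by rw [hsP a y (w5 hy)]; exact w6 hy)
      have a2 : ContinuousAt (σ a) (sec a y) :=
        continuousAt_const.congr (a1.mono fun e he => he.symm)
      exact a2.comp_continuousWithinAt ((hsc a).mono w5 y hy)
    have hb1 : dist a b < ρ := by
      have := w5 w3
      rwa [mem_ball, dist_comm] at this
    have k2 := h3 a (c a b) (sec b b) (by rw [hss]; exact w6 w3)
    have k3 := h2 a b (sec b b) (by rw [hss]; exact w6 w3)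
      (by rw [hss]; exact mem_ball_self (by positivity))
    rw [hc a b hb1, ← k1, k3] at k2
    beta_reduce
    rw [k2]
    group
  · have hex : ∀ e : U, ∃ h : H, h • sec (g.P e) (g.P e) = e := fun e => g.orb _ _ (hss _)
    choose hh hhe using hex
    have hlc : IsLocallyConstant fun e : U => χ (hh e) * Θ (g.P e) := by
      rw [IsLocallyConstant.iff_eventually_eq]
      intro e
      have b1 : ∀ᶠ e' in 𝓝 e, g.P e' ∈ ball (g.P e) (min ρ ε) :=
        hP.continuousAt.eventually (ball_mem_nhds _ (lt_min hρ hε))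
      obtain ⟨O, hO, heO, hOi⟩ := hinj e
      have b2 : ContinuousAt (fun e' => hh e • sec (g.P e) (g.P e')) e :=
        (g.smul_cont _).continuousAt.comp
          (((hsc (g.P e)).continuousAt (ball_mem_nhds _ hρ)).comp hP.continuousAt)
      have b3 : ∀ᶠ e' in 𝓝 e, hh e • sec (g.P e) (g.P e') ∈ O :=
        b2.eventually (by beta_reduce; rw [hhe]; exact hO.mem_nhds heO)
      filter_upwards [b1, b3, hO.mem_nhds heO] with e' c1 c2 c3
      have c4 : dist (g.P e) (g.P e') < min ρ ε := by rwa [mem_ball, dist_comm] at c1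
      have c5 : hh e • sec (g.P e) (g.P e') = e' := hOi c2 c3 (by
        rw [g.P_smul, hsP _ _ (ball_subset_ball (min_le_left _ _) c1)])
      rw [← hc _ _ (c4.trans_le (min_le_left _ _)), ← mul_smul] at c5
      have c6 := g.cancel (c5.trans (hhe e').symm)
      rw [← c6, map_mul, hχ _ _ (c4.trans_le (min_le_right _ _))]
      group
    obtain ⟨e₀⟩ : Nonempty U := inferInstance
    ext h
    have d1 := hlc.apply_eq_of_preconnectedSpace (h • e₀) e₀
    have d2 : hh (h • e₀) = h * hh e₀ := by
      have d3 := hhe (h • e₀)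
      rw [g.P_smul] at d3
      refine g.cancel (e := sec (g.P e₀) (g.P e₀)) ?_
      rw [d3, mul_smul, hhe]
    beta_reduce at d1
    rw [d2, g.P_smul, map_mul, mul_assoc] at d1
    exact mul_eq_right.1 d1

end Gal

end Vale.Agent.P216M
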