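import Vale.Agent.P216M.Ext
import Mathlib.GroupTheory.PGroup
import Mathlib.NumberTheory.Multiplicity
import Mathlib.GroupTheory.SpecificGroups.Cyclic.Basic

/-!
# Finite `p`-groups of rank one have a cyclic subgroup of index at most two (one if `p` is odd)
-/

set_option linter.all false

namespace Vale.Agent.P216M

open Subgroup

variable {p : ℕ} [hp : Fact p.Prime]

theorem nt_solve {e : ℕ} {d u m' : ℤ} (hu : ¬ (p : ℤ) ∣ u) :
    ∃ j : ℤ, (p : ℤ) ^ e ∣ j * (d * u) + d * m' := by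
  have h1 : IsCoprime ((p : ℤ) ^ e) u :=
    ((Nat.prime_iff_prime_int.1 hp.out).coprime_iff_not_dvd.2 hu).pow_left
  obtain ⟨a, b, hab⟩ := h1
  refine ⟨-b * m', a * d * m', ?_⟩
  linear_combination (-(d * m')) * hab

theorem nt {e : ℕ} (he : 1 ≤ e) {r m : ℤ} (h1 : (p : ℤ) ^ e ∣ r ^ p - 1)
    (h2 : (p : ℤ) ^ e ∣ m * (r - 1))
    (h3 : ∀ j : ℤ, ¬ (p : ℤ) ^ e ∣ j * (∑ i ∈ Finset.range p, r ^ i) + m) :
    ((p : ℤ) ^ e ∣ r - 1 ∧ ¬ (p : ℤ) ∣ m) ∨
      (p = 2 ∧ (2 : ℤ) ^ e ∣ r + 1 ∧ ¬ (2 : ℤ) ^ e ∣ r - 1) := by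
  have hpi : Prime (p : ℤ) := Nat.prime_iff_prime_int.1 hp.out
  by_cases hm : (p : ℤ) ∣ m
  swap
  · exact Or.inl ⟨(hpi.coprime_iff_not_dvd.2 hm).pow_left.dvd_of_dvd_mul_left h2, hm⟩
  obtain ⟨m', rfl⟩ := hm
  have h4 : (p : ℤ) ∣ r - 1 := by
    have h5 : (p : ℤ) ∣ r ^ p - 1 := (dvd_pow_self _ (by omega)).trans h1
    have h6 : ((r ^ p - 1 : ℤ) : ZMod p) = 0 := (ZMod.intCast_zmod_eq_zero_iff_dvd _ _).2 h5
    rw [← ZMod.intCast_zmod_eq_zero_iff_dvd]
    push_cast at h6 ⊢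
    rwa [ZMod.pow_card] at h6
  obtain ⟨b, hb⟩ := h4
  have hr : r = 1 + p * b := by linarith
  rcases hp.out.eq_two_or_odd' with rfl | hodd
  · right
    have hN : (∑ i ∈ Finset.range 2, r ^ i) = 2 * (1 + b) := by
      rw [Finset.sum_range_succ, Finset.sum_range_one, hr]
      push_cast
      ring
    rw [hN] at h3
    push_cast at h1 h2 h3 hb hr hpi
    have hu : (2 : ℤ) ∣ 1 + b := by
      by_contra hu
      obtain ⟨j, hj⟩ := nt_solve (p := 2) (e := e) (d := 2) (m' := m') hu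
      exact h3 j hj
    have hb2 : ¬ (2 : ℤ) ∣ b := by omega
    have hcb : IsCoprime ((2 : ℤ) ^ e) b := (hpi.coprime_iff_not_dvd.2 hb2).pow_left
    obtain ⟨e, rfl⟩ : ∃ e', e = e' + 1 := ⟨e - 1, by omega⟩
    have k1 : (2 : ℤ) ^ e ∣ 2 * m' := by
      have : (2 : ℤ) ^ (e + 1) ∣ 2 * (2 * m') :=
        hcb.dvd_of_dvd_mul_right (by
          rw [hb, show 2 * m' * (2 * b) = 2 * (2 * m') * b by ring] at h2
          exact h2)
      rw [pow_succ'] at this
      exact (mul_dvd_mul_iff_left two_ne_zero).1 this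
    have k2 : (2 : ℤ) ^ e ∣ r + 1 := by
      have : (2 : ℤ) ^ (e + 1) ∣ 2 * (r + 1) :=
        hcb.dvd_of_dvd_mul_right (by
          rw [show r ^ 2 - 1 = 2 * (r + 1) * b by linear_combination (r + 1) * hb] at h1
          exact h1)
      rw [pow_succ'] at this
      exact (mul_dvd_mul_iff_left two_ne_zero).1 this
    obtain ⟨v, hv⟩ := k2
    obtain ⟨w, hw⟩ := k1
    have k3 : (2 : ℤ) ∣ v := by
      by_contra hv2
      obtain ⟨j, hj⟩ := nt_solve (p := 2) (e := e + 1) (d := 2 ^ e) (m' := w) hv2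
      refine h3 j ?_
      rw [hw, show 2 * (1 + b) = r + 1 by linarith, hv]
      exact hj
    obtain ⟨v', rfl⟩ := k3
    refine ⟨rfl, ⟨v', by rw [hv]; ring⟩, fun k4 => h3 0 ?_⟩
    have k5 : (2 : ℤ) ^ (e + 1) ∣ 2 := by
      have := dvd_sub (⟨v', by rw [hv]; ring⟩ : (2 : ℤ) ^ (e + 1) ∣ r + 1) k4
      rwa [show r + 1 - (r - 1) = 2 by ring] at this
    rw [zero_mul, zero_add]
    exact k5.mul_right _
  · exfalso
    obtain ⟨t, ht⟩ := odd_sq_dvd_geom_sum₂_sub (1 : ℤ) b hodd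
    simp only [one_pow, mul_one] at ht
    rw [← hr] at ht
    have hu : ¬ (p : ℤ) ∣ 1 + p * t := fun h =>
      hpi.not_dvd_one ((dvd_add_left (dvd_mul_right _ _)).1 h)
    obtain ⟨j, hj⟩ := nt_solve (p := p) (e := e) (d := p) (m' := m') hu
    refine h3 j ?_
    rw [show (∑ i ∈ Finset.range p, r ^ i) = p * (1 + p * t) by linear_combination ht]
    exact hj

/-- No subgroup `(ℤ/p)²`. -/
def NoRk2 (p : ℕ) (F : Type) [Group F] : Prop := ∀ ι : Sq p →* F, ¬ Function.Injective ι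

/-- A cyclic subgroup of index one, or of index two and `p = 2`. -/
def Good (p : ℕ) (P : Type) [Group P] : Prop :=
  ∃ a : P, ∀ b ∉ zpowers a, ∀ b' ∉ zpowers a, p = 2 ∧ b * b' ∈ zpowers a

variable {P : Type} [Group P]

theorem exists_central [Finite P] (hP : IsPGroup p P) (K : Subgroup P) [K.Normal] (hK : K ≠ ⊥) :
    ∃ x ∈ K, x ≠ 1 ∧ x ∈ center P ∧ x ^ p = 1 := by
  have h1 := (hP.of_equiv ConjAct.toConjAct).exists_fixed_point_of_prime_dvd_card_of_fixed_point K
    (((hP.to_subgroup K).card_eq_or_dvd).resolve_left (fun h => hK (card_eq_one.1 h)))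
    (a := 1) (fun g => smul_one g)
  obtain ⟨y, hy, hy1⟩ := h1
  have hy0 : (y : P) ≠ 1 := fun h => hy1 (Subtype.ext h.symm)
  have hyc : (y : P) ∈ center P := by
    rw [mem_center_iff]
    intro g
    have h2 := congrArg Subtype.val (hy (ConjAct.toConjAct g))
    have h3 : g * (y : P) * g⁻¹ = y := h2
    exact mul_inv_eq_iff_eq_mul.1 h3
  have hd := hP.dvd_orderOf hy0
  have ho := orderOf_pow_orderOf_div (orderOf_pos (y : P)).ne' hd
  refine ⟨(y : P) ^ (orderOf (y : P) / p), K.pow_mem y.2 _, fun h => ?_, pow_mem hyc _, ?_⟩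
  · rw [h, orderOf_one] at ho
    exact hp.out.one_lt.ne ho
  · have := pow_orderOf_eq_one ((y : P) ^ (orderOf (y : P) / p))
    rwa [ho] at this

theorem pow_val_add {x : P} (hx : x ^ p = 1) (i j : ZMod p) :
    x ^ (i + j).val = x ^ i.val * x ^ j.val := by
  rw [ZMod.val_add, ← pow_add, ← pow_eq_pow_mod _ hx]

theorem uniq [Finite P] (hP : IsPGroup p P) (h : NoRk2 p P) {x y : P} (hx : x ^ p = 1)
    (hy : y ^ p = 1) (hx1 : x ≠ 1) : y ∈ zpowers x := by
  haveI : Nontrivial P := ⟨x, 1, hx1⟩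
  obtain ⟨z, -, hz1, hzc, hz⟩ := exists_central hP ⊤ top_ne_bot
  have hoz : orderOf z = p := orderOf_eq_prime hz hz1
  have key : ∀ w : P, w ^ p = 1 → w ∈ zpowers z := by
    intro w hw
    by_contra hcon
    let ι : Sq p →* P := MonoidHom.mk' (fun g => z ^ (cX g).val * w ^ (cY g).val) fun g h => by
      have hc : w ^ (cY g).val * z ^ (cX h).val = z ^ (cX h).val * w ^ (cY g).val :=
        mem_center_iff.1 (pow_mem hzc _) _
      rw [cX_mul, cY_mul, pow_val_add hz, pow_val_add hw]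
      simp only [mul_assoc]
      rw [← mul_assoc (w ^ (cY g).val) (z ^ (cX h).val), hc, mul_assoc]
    refine h ι ((injective_iff_map_eq_one ι).2 fun g hg => ?_)
    have hg' : z ^ (cX g).val * w ^ (cY g).val = 1 := hg
    have hw1 : w ≠ 1 := fun h => hcon (by rw [h]; exact one_mem _)
    have how : orderOf w = p := orderOf_eq_prime hw hw1
    have hY : cY g = 0 := by
      by_contra hY
      have h1 : w ∈ zpowers (w ^ (cY g).val) := by
        rw [mem_zpowers_pow_iff, how]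
        exact (Nat.coprime_of_lt_prime (fun h0 => hY ((ZMod.val_eq_zero _).1 h0)) (ZMod.val_lt _)
          hp.out).symm
      have h2 : w ^ (cY g).val ∈ zpowers z := by
        rw [eq_inv_of_mul_eq_one_right hg']
        exact inv_mem (pow_mem (mem_zpowers z) _)
      exact hcon (zpowers_le.2 h2 h1)
    rw [hY, ZMod.val_zero, pow_zero, mul_one, ← orderOf_dvd_iff_pow_eq_one, hoz] at hg'
    have hX : cX g = 0 :=
      (ZMod.val_eq_zero _).1 (Nat.eq_zero_of_dvd_of_lt hg' (ZMod.val_lt _))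
    exact sq_ext hX hY
  have h1 : (⟨y, key y hy⟩ : zpowers z) ∈ zpowers (⟨x, key x hx⟩ : zpowers z) :=
    mem_zpowers_of_prime_card (p := p) (by rw [Nat.card_zpowers, hoz])
      fun h => hx1 (congrArg Subtype.val h)
  obtain ⟨k, hk⟩ := h1
  exact ⟨k, congrArg Subtype.val hk⟩

theorem conj_zpow_aux {a c : P} {r : ℤ} (h : c * a * c⁻¹ = a ^ r) (t : ℕ) (j : ℤ) :
    c ^ t * a ^ j * (c ^ t)⁻¹ = a ^ (j * r ^ t) := by
  induction t generalizing j with
  | zero => simp
  | succ t ih =>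
    have h1 : c * a ^ j * c⁻¹ = a ^ (j * r) := by rw [← conj_zpow, h, ← zpow_mul, mul_comm]
    calc c ^ (t + 1) * a ^ j * (c ^ (t + 1))⁻¹ = c ^ t * (c * a ^ j * c⁻¹) * (c ^ t)⁻¹ := by
          rw [pow_succ]; group
      _ = a ^ (j * r ^ (t + 1)) := by rw [h1, ih]; congr 1; ring

theorem norm_pow {a c : P} {r : ℤ} (h : c * a * c⁻¹ = a ^ r) (t : ℕ) (j : ℤ) :
    (a ^ j * c) ^ t = a ^ (j * ∑ i ∈ Finset.range t, r ^ i) * c ^ t := by
  induction t with
  | zero => simp
  | succ t ih =>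
    rw [pow_succ, ih, Finset.sum_range_succ, mul_add, zpow_add, ← conj_zpow_aux h t j, pow_succ]
    group

theorem step [Finite P] (hP : IsPGroup p P) (h : NoRk2 p P) {a c : P} {e : ℕ}
    (ha : orderOf a = p ^ e) (he : 1 ≤ e) {r m : ℤ} (hr : c * a * c⁻¹ = a ^ r)
    (hc : c ∉ zpowers a) (hm : c ^ p = a ^ m) :
    ((p : ℤ) ^ e ∣ r - 1 ∧ ¬ (p : ℤ) ∣ m) ∨
      (p = 2 ∧ (2 : ℤ) ^ e ∣ r + 1 ∧ ¬ (2 : ℤ) ^ e ∣ r - 1) := by
  have ha' : (orderOf a : ℤ) = (p : ℤ) ^ e := by rw [ha]; push_cast; rfl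
  refine nt he ?_ ?_ fun j hj => ?_
  · rw [← ha', orderOf_dvd_sub_iff_zpow_eq_zpow]
    have := conj_zpow_aux hr p 1
    rw [hm, one_mul] at this
    rw [← this]
    group
  · rw [← ha', mul_sub, mul_one, orderOf_dvd_sub_iff_zpow_eq_zpow]
    have := conj_zpow_aux hr 1 m
    rw [pow_one, pow_one] at this
    rw [← this, ← hm]
    group
  · rw [← ha', orderOf_dvd_iff_zpow_eq_one] at hj
    have h1 : (a ^ j * c) ^ p = 1 := by rw [norm_pow hr, hm, ← zpow_add, hj]
    have hd : p ∣ orderOf a := by rw [ha]; exact dvd_pow_self _ (by omega)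
    have ho := orderOf_pow_orderOf_div (orderOf_pos a).ne' hd
    have h2 : a ^ j * c ∈ zpowers (a ^ (orderOf a / p)) := by
      refine uniq hP h ?_ h1 fun h => ?_
      · have := pow_orderOf_eq_one (a ^ (orderOf a / p))
        rwa [ho] at this
      · rw [h, orderOf_one] at ho
        exact hp.out.one_lt.ne ho
    have h3 : a ^ j * c ∈ zpowers a := zpowers_le.2 (pow_mem (mem_zpowers a) _) h2
    exact hc ((mul_mem_cancel_left (zpow_mem (mem_zpowers a) j)).1 h3)

/-- **Groups of rank one.** -/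
theorem good [Finite P] (hP : IsPGroup p P) (h : NoRk2 p P) : Good p P := by
  classical
  rcases subsingleton_or_nontrivial P with hs | hs
  · exact ⟨1, fun b hb => absurd (by rw [Subsingleton.elim b 1]; exact one_mem _) hb⟩
  obtain ⟨a, haN, hmax⟩ := Set.exists_max_image {a : P | (zpowers a).Normal} orderOf
    (Set.toFinite _) ⟨1, by
      show (zpowers (1 : P)).Normal
      rw [zpowers_one_eq_bot]; infer_instance⟩
  haveI : (zpowers a).Normal := haN
  obtain ⟨e, ha⟩ := IsPGroup.iff_orderOf.1 hP a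
  have he : 1 ≤ e := by
    obtain ⟨z, -, hz1, hzc, hz⟩ := exists_central hP ⊤ top_ne_bot
    have h1 := hmax z (show (zpowers z).Normal from ⟨fun x hx g => by
      have := mem_center_iff.1 (zpowers_le.2 hzc hx) g
      rw [this, mul_inv_cancel_right]
      exact hx⟩)
    rw [orderOf_eq_prime hz hz1, ha] at h1
    by_contra h0
    rw [show e = 0 by omega, pow_zero] at h1
    exact absurd hp.out.one_lt (not_lt.2 h1)
  have ha' : (orderOf a : ℤ) = (p : ℤ) ^ e := by rw [ha]; push_cast; rfl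
  have SC : ∀ c : P, c * a * c⁻¹ = a → c ∈ zpowers a := by
    intro c₀ hc₀
    by_contra hcon
    let C : Subgroup P := centralizer (zpowers a : Set P)
    have hC : ∀ c, c * a * c⁻¹ = a → c ∈ C := by
      rintro c hc _ ⟨k, rfl⟩
      have : Commute c a := mul_inv_eq_iff_eq_mul.1 hc
      exact (this.zpow_right k).eq.symm
    haveI : (C.map (QuotientGroup.mk' (zpowers a))).Normal :=
      Normal.map inferInstance _ (QuotientGroup.mk'_surjective _)
    obtain ⟨_, ⟨c, hcC, rfl⟩, hx1, hxc, hxp⟩ := exists_central (hP.to_quotient (zpowers a))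
      (C.map (QuotientGroup.mk' (zpowers a))) (fun hb => by
        have h1 : QuotientGroup.mk' (zpowers a) c₀ ∈ C.map (QuotientGroup.mk' (zpowers a)) :=
          ⟨c₀, hC c₀ hc₀, rfl⟩
        rw [hb, mem_bot] at h1
        exact hcon ((QuotientGroup.eq_one_iff _).1 h1))
    have hc : c ∉ zpowers a := fun h => hx1 ((QuotientGroup.eq_one_iff _).2 h)
    rw [← map_pow] at hxp
    obtain ⟨m, hm⟩ := (QuotientGroup.eq_one_iff _).1 hxp
    have hr : c * a * c⁻¹ = a ^ (1 : ℤ) := by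
      rw [zpow_one, ← hcC a (mem_zpowers a), mul_inv_cancel_right]
    rcases step hP h ha he hr hc hm.symm with ⟨-, h2⟩ | ⟨-, -, h2⟩
    · have h3 : a ∈ zpowers (a ^ m) := by
        rw [mem_zpowers_zpow_iff, ha', ← Int.isCoprime_iff_gcd_eq_one]
        exact ((Nat.prime_iff_prime_int.1 hp.out).coprime_iff_not_dvd.2 h2).pow_left.symm
      have h4 : zpowers a ≤ zpowers c := by
        refine zpowers_le.2 (zpowers_le.2 ?_ h3)
        have hm' : a ^ m = c ^ p := hm
        rw [hm']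
        exact pow_mem (mem_zpowers c) _
      have h5 : (zpowers c).Normal := ⟨by
        rintro _ ⟨k, rfl⟩ g
        have h6 := mem_center_iff.1 hxc (QuotientGroup.mk' (zpowers a) g)
        have h7 : c⁻¹ * (g * c * g⁻¹) ∈ zpowers a := by
          rw [← QuotientGroup.eq_one_iff]
          show QuotientGroup.mk' (zpowers a) (c⁻¹ * (g * c * g⁻¹)) = 1
          rw [map_mul, map_mul, map_mul, h6, map_inv, map_inv]
          group
        have h8 : g * c * g⁻¹ ∈ zpowers c :=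
          (mul_mem_cancel_left (inv_mem (mem_zpowers c))).1 (h4 h7)
        show g * c ^ k * g⁻¹ ∈ zpowers c
        rw [← conj_zpow]
        exact zpow_mem h8 k⟩
      have h6 := hmax c h5
      rw [← Nat.card_zpowers, ← Nat.card_zpowers] at h6
      have h7 := eq_of_le_of_card_ge h4 h6
      exact hc (h7 ▸ mem_zpowers c)
    · exact h2 (by simp)
  have key : ∀ b ∉ zpowers a, p = 2 ∧ b * a * b⁻¹ = a⁻¹ := by
    intro b hb
    obtain ⟨s, hs⟩ := haN.conj_mem a (mem_zpowers a) b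
    have hs' : b * a * b⁻¹ = a ^ s := hs.symm
    have hex : ∃ j : ℕ, b ^ p ^ j ∈ zpowers a := by
      obtain ⟨j, hj⟩ := hP b
      exact ⟨j, by rw [hj]; exact one_mem _⟩
    have h1 := Nat.find_spec hex
    obtain ⟨j, hj⟩ : ∃ j, Nat.find hex = j + 1 := Nat.exists_eq_succ_of_ne_zero fun h0 => by
      rw [h0, pow_zero, pow_one] at h1
      exact hb h1
    have h2 := Nat.find_min hex (m := j) (by omega)
    rw [hj, pow_succ, pow_mul] at h1
    obtain ⟨m, hm⟩ := h1
    have hr := conj_zpow_aux hs' (p ^ j) 1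
    rw [zpow_one, one_mul] at hr
    rcases step hP h ha he hr h2 hm.symm with ⟨h3, -⟩ | ⟨h3, h4, h5⟩
    · rw [← ha', orderOf_dvd_sub_iff_zpow_eq_zpow, zpow_one] at h3
      exact absurd (SC _ (hr.trans h3)) h2
    · subst h3
      refine ⟨rfl, ?_⟩
      have he2 : 2 ≤ e := by
        by_contra h6
        obtain rfl : e = 1 := by omega
        rw [pow_one] at h4 h5
        omega
      rcases j with _ | j
      · rw [pow_zero, pow_one] at h4
        rw [hs', ← zpow_neg_one, ← orderOf_dvd_sub_iff_zpow_eq_zpow, ha', sub_neg_eq_add]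
        exact h4
      · exfalso
        have h6 : (4 : ℤ) ∣ (s ^ 2 ^ j) ^ 2 + 1 := by
          rw [← pow_mul, ← pow_succ]
          exact (pow_dvd_pow (2 : ℤ) he2).trans h4
        generalize s ^ 2 ^ j = t at h6
        rcases Int.even_or_odd' t with ⟨u, rfl | rfl⟩
        · have : (2 * u) ^ 2 + 1 = 4 * (u ^ 2) + 1 := by ring
          rw [this] at h6
          omega
        · have : (2 * u + 1) ^ 2 + 1 = 4 * (u ^ 2 + u) + 2 := by ring
          rw [this] at h6
          omega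
  refine ⟨a, fun b hb b' hb' => ⟨(key b hb).1, SC _ ?_⟩⟩
  have h1 := (key b hb).2
  have h2 := (key b' hb').2
  calc b * b' * a * (b * b')⁻¹ = b * (b' * a * b'⁻¹) * b⁻¹ := by group
    _ = (b * a * b⁻¹)⁻¹ := by rw [h2]; group
    _ = a := by rw [h1, inv_inv]

end Vale.Agent.P216M
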