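import Vale.Agent.P216M.Grp1
import Vale.Agent.P216M.Cover
import Vale.Agent.P216.H215.RFS
import Vale.Agent.P216.H215.ResidDef
import Mathlib.GroupTheory.SpecificGroups.ZGroup

/-!
# Groups without rank two and with bounded solvable quotients
-/

set_option linter.all false

namespace Vale.Agent.P216M

open Subgroup Vale.Agent.P216 Vale.Agent.P216.RFS
open scoped commutatorElement

/-- The solvable residual. -/
theorem exists_res {G : Type} [Group G] (h : BddSolv G) :
    ∃ (R : Subgroup G) (_ : R.Normal), R.index ≠ 0 ∧ Group.IsSolvable (G ⧸ R) ∧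
      ∀ N : Subgroup G, ∀ _ : N.Normal, N.index ≠ 0 → Group.IsSolvable (G ⧸ N) → R ≤ N := by
  classical
  obtain ⟨B, hB⟩ := h
  let P : Subgroup G → Prop := fun N => ∃ _ : N.Normal, N.index ≠ 0 ∧ Group.IsSolvable (G ⧸ N)
  have hPtop : P ⊤ := by
    have := QuotientGroup.subsingleton_quotient_top (G := G)
    exact ⟨inferInstance, by simp, Group.isSolvable_of_comm fun a b => Subsingleton.elim _ _⟩
  obtain ⟨R, ⟨hRn, hR0, hRs⟩, hmax⟩ : ∃ R, P R ∧ ∀ N, P N → N.index ≤ R.index := by
    have hfin : ((fun N : Subgroup G => N.index) '' {N | P N}).Finite :=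
      (Set.finite_Iic B).subset (by
        rintro _ ⟨N, ⟨hN, h1, h2⟩, rfl⟩
        exact hB N hN h1 h2)
    obtain ⟨_, ⟨R, hR, rfl⟩, hmax⟩ := Set.exists_max_image _ id hfin ⟨_, ⟨⊤, hPtop, rfl⟩⟩
    exact ⟨R, hR, fun N hN => hmax _ ⟨N, hN, rfl⟩⟩
  refine ⟨R, hRn, hR0, hRs, fun N hN hN0 hNs => ?_⟩
  have hPinf : P (R ⊓ N) := by
    refine ⟨Subgroup.normal_inf_normal _ _, Subgroup.index_inf_ne_zero hR0 hN0, ?_⟩
    have hn : (R ⊓ N).Normal := Subgroup.normal_inf_normal _ _
    let f : G ⧸ (R ⊓ N) →* (G ⧸ R) × (G ⧸ N) :=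
      QuotientGroup.lift (R ⊓ N) ((QuotientGroup.mk' R).prod (QuotientGroup.mk' N)) (by
        intro x hx
        rw [Subgroup.mem_inf] at hx
        rw [MonoidHom.mem_ker]
        refine Prod.ext ?_ ?_
        · exact (QuotientGroup.eq_one_iff x).2 hx.1
        · exact (QuotientGroup.eq_one_iff x).2 hx.2)
    have hf : Function.Injective f := by
      rw [injective_iff_map_eq_one]
      intro x hx
      obtain ⟨x, rfl⟩ := QuotientGroup.mk_surjective x
      have h1 : (QuotientGroup.mk' R x, QuotientGroup.mk' N x) = (1, 1) := hx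
      rw [Prod.mk.injEq] at h1
      rw [QuotientGroup.eq_one_iff, Subgroup.mem_inf]
      exact ⟨(QuotientGroup.eq_one_iff x).1 h1.1, (QuotientGroup.eq_one_iff x).1 h1.2⟩
    exact Group.isSolvable_of_isSolvable_injective hf
  have h1 := hmax _ hPinf
  haveI : (R ⊓ N).FiniteIndex := ⟨hPinf.2.1⟩
  by_contra hcon
  have h2 : R ⊓ N < R := inf_lt_left.2 hcon
  exact absurd (Subgroup.index_strictAnti h2) (not_lt.2 h1)

theorem noAb_res {G : Type} [Group G] {R : Subgroup G} [R.Normal] (hR0 : R.index ≠ 0)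
    (hRs : Group.IsSolvable (G ⧸ R))
    (hR : ∀ N : Subgroup G, ∀ _ : N.Normal, N.index ≠ 0 → Group.IsSolvable (G ⧸ N) → R ≤ N) :
    NoAb R := by
  intro B _ _ ψ
  let K : Subgroup G := ψ.ker.map R.subtype
  have hK0 : K.index ≠ 0 := index_map_subtype_ne_zero hR0 (by
    rw [index_ker]
    exact Nat.card_pos.ne')
  have hc : ⁅R, R⁆ ≤ K.normalCore := by
    refine Subgroup.normal_le_normalCore.2 (commutator_le.2 fun x hx y hy => ?_)
    refine ⟨⁅(⟨x, hx⟩ : R), ⟨y, hy⟩⁆, ?_, rfl⟩
    show ψ _ = 1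
    rw [map_commutatorElement, commutatorElement_eq_one_iff_mul_comm, mul_comm]
  have hle : K.normalCore ≤ R := K.normalCore_le.trans (map_subtype_le _)
  haveI : Group.IsSolvable (R.map (QuotientGroup.mk' K.normalCore)) :=
    Group.isSolvable_of_comm (by
      rintro ⟨_, x, hx, rfl⟩ ⟨_, y, hy, rfl⟩
      refine Subtype.ext ?_
      show QuotientGroup.mk' K.normalCore x * QuotientGroup.mk' K.normalCore y =
        QuotientGroup.mk' K.normalCore y * QuotientGroup.mk' K.normalCore x
      rw [← commutatorElement_eq_one_iff_mul_comm, ← map_commutatorElement]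
      exact (QuotientGroup.eq_one_iff _).2 (hc (commutator_mem_commutator hx hy)))
  have hs : Group.IsSolvable (G ⧸ K.normalCore) :=
    Group.isSolvable_of_ker_le_range (R.map (QuotientGroup.mk' K.normalCore)).subtype
      (QuotientGroup.map K.normalCore R (MonoidHom.id G) hle) (by
        intro x hx
        obtain ⟨x, rfl⟩ := QuotientGroup.mk_surjective x
        rw [range_subtype]
        exact ⟨x, (QuotientGroup.eq_one_iff x).1 hx, rfl⟩)
  have h1 := (hR _ inferInstance (index_normalCore_le hK0).1 hs).trans K.normalCore_le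
  ext x
  obtain ⟨y, hy, hyx⟩ := h1 x.2
  rw [← show y = x from Subtype.ext hyx]
  exact hy

theorem BddSolv.of_equiv {H H' : Type} [Group H] [Group H'] (e : H ≃* H') (h : BddSolv H') :
    BddSolv H := by
  obtain ⟨B, hB⟩ := h
  refine ⟨B, fun N hN h0 hs => ?_⟩
  have hN' : (N.map (e : H →* H')).Normal := hN.map _ e.surjective
  have h1 := hB (N.map (e : H →* H')) hN' (by rwa [index_map_equiv]) (by
    refine Group.isSolvable_of_surjective
      (f := QuotientGroup.map N (N.map (e : H →* H')) (e : H →* H') (le_comap_map _ _)) ?_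
    intro y
    obtain ⟨y, rfl⟩ := QuotientGroup.mk_surjective y
    obtain ⟨x, rfl⟩ := e.surjective y
    exact ⟨x, rfl⟩)
  rwa [index_map_equiv] at h1

theorem Good.of_surjective {p : ℕ} {P S : Type} [Group P] [Group S] (h : Good p P) (f : P →* S)
    (hf : Function.Surjective f) : Good p S := by
  obtain ⟨a, ha⟩ := h
  have key : ∀ x, x ∈ zpowers a → f x ∈ zpowers (f a) := by
    rintro _ ⟨k, rfl⟩
    exact ⟨k, (map_zpow f a k).symm⟩
  refine ⟨f a, fun b hb b' hb' => ?_⟩
  obtain ⟨b, rfl⟩ := hf b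
  obtain ⟨b', rfl⟩ := hf b'
  obtain ⟨h1, h2⟩ := ha b (fun h => hb (key _ h)) b' (fun h => hb' (key _ h))
  exact ⟨h1, by rw [← map_mul]; exact key _ h2⟩

section

variable {G : Type} [Group G]

theorem fi_comp {H : Type} [Group H] {j : H →* G} (hj : Function.Injective j)
    (hfi : j.range.FiniteIndex) {K : Subgroup H} (hK : K.index ≠ 0) :
    (j.comp K.subtype).range.FiniteIndex := by
  refine ⟨?_⟩
  rw [MonoidHom.range_comp, range_subtype, index_map_of_injective _ hj]
  exact mul_ne_zero hK hfi.index_ne_zero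

theorem noRk2_quot (hS : StarG G) {H : Type} [Group H] {j : H →* G} (hj : Function.Injective j)
    (hfi : j.range.FiniteIndex) {R : Subgroup H} [R.Normal] (hR0 : R.index ≠ 0) (hR : NoAb R)
    (p : ℕ) [Fact p.Prime] : NoRk2 p (H ⧸ R) := by
  intro ι hι
  let H' : Subgroup H := ι.range.comap (QuotientGroup.mk' R)
  have hle : R ≤ H' := fun x hx => by
    show QuotientGroup.mk' R x ∈ ι.range
    rw [show QuotientGroup.mk' R x = 1 from (QuotientGroup.eq_one_iff x).2 hx]
    exact one_mem _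
  haveI : R.FiniteIndex := ⟨hR0⟩
  let q : H' →* Sq p := ((MonoidHom.ofInjective hι).symm : ι.range →* Sq p).comp
    ((QuotientGroup.mk' R).subgroupComap ι.range)
  refine hS H' (j.comp H'.subtype) (hj.comp H'.subtype_injective)
    (fi_comp hj hfi (finiteIndex_of_le hle).index_ne_zero) p q
    ((MonoidHom.ofInjective hι).symm.surjective.comp
      (MonoidHom.subgroupComap_surjective_of_surjective _ _ (QuotientGroup.mk'_surjective R))) ?_
  have hq : ∀ x : H', x ∈ q.ker ↔ (x : H) ∈ R := by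
    intro x
    rw [MonoidHom.mem_ker, ← QuotientGroup.eq_one_iff]
    show (MonoidHom.ofInjective hι).symm _ = 1 ↔ _
    rw [MulEquiv.map_eq_one_iff, Subtype.ext_iff]
    rfl
  intro B _ _ ψ
  let i : R →* q.ker := (inclusion hle).codRestrict q.ker fun x => (hq _).2 x.2
  ext x
  exact DFunLike.congr_fun (hR B (ψ.comp i)) ⟨x, (hq _).1 x.2⟩

theorem good_quot (hS : StarG G) (hB : ∀ H : Subgroup G, H.FiniteIndex → BddSolv H)
    {H : Type} [Group H] {j : H →* G} (hj : Function.Injective j) (hfi : j.range.FiniteIndex)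
    {p : ℕ} [Fact p.Prime] {F : Type} [Group F] [Finite F] (hF : IsPGroup p F) (f : H →* F)
    (hf : Function.Surjective f) : Good p F := by
  obtain ⟨R, _, hR0, hRs, hR⟩ := exists_res
    (BddSolv.of_equiv (MonoidHom.ofInjective hj) (hB _ hfi))
  have h2 := noRk2_quot hS hj hfi hR0 (noAb_res hR0 hRs hR) p
  haveI := hF.isNilpotent
  have hle : R ≤ f.ker := hR _ inferInstance (by rw [index_ker]; exact Nat.card_pos.ne')
    (Group.isSolvable_of_isSolvable_injective (QuotientGroup.kerLift_injective f))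
  let g : H ⧸ R →* F := QuotientGroup.lift R f hle
  have hg : Function.Surjective g := fun y => by
    obtain ⟨x, rfl⟩ := hf y
    exact ⟨x, rfl⟩
  haveI : Finite (H ⧸ R) := Nat.finite_of_card_ne_zero hR0
  obtain ⟨P⟩ : Nonempty (Sylow p (H ⧸ R)) := inferInstance
  have h3 : (⊤ : Subgroup F) = P.mapSurjective hg :=
    (P.mapSurjective hg).is_maximal' (hF.to_subgroup ⊤) le_top
  refine (good P.2 fun ι hι => h2 ((P : Subgroup (H ⧸ R)).subtype.comp ι)
    ((P : Subgroup (H ⧸ R)).subtype_injective.comp hι)).of_surjective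
    (g.comp (P : Subgroup (H ⧸ R)).subtype) fun y => ?_
  have h4 : y ∈ (⊤ : Subgroup F) := mem_top y
  rw [h3] at h4
  obtain ⟨x, hx, rfl⟩ := h4
  exact ⟨⟨x, hx⟩, rfl⟩

end

theorem solv_or {A : Type} [Group A] [Finite A]
    (h : ∀ (p : ℕ) [Fact p.Prime] (S : Subgroup A), IsPGroup p S → Good p S)
    (T : Subgroup A) [T.Normal] : Group.IsSolvable T ∨ Group.IsSolvable (A ⧸ T) := by
  by_cases hT : IsZGroup T
  · exact Or.inl inferInstance
  right
  obtain ⟨p, hp, Q₁, hQ₁⟩ : ∃ p : ℕ, p.Prime ∧ ∃ Q : Sylow p T, ¬ IsCyclic Q := by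
    by_contra hcon
    push Not at hcon
    exact hT ⟨hcon⟩
  haveI := Fact.mk hp
  let S₁ : Subgroup A := (Q₁ : Subgroup T).map T.subtype
  have hS₁ : IsPGroup p S₁ := Q₁.2.map _
  have hnc : ∀ a : A, ¬ S₁ ≤ zpowers a := fun a ha => by
    haveI : IsCyclic S₁ := Subgroup.isCyclic_of_le ha
    exact hQ₁ (isCyclic_of_injective
      ((Q₁ : Subgroup T).equivMapOfInjective _ T.subtype_injective : Q₁ →* S₁)
      (MulEquiv.injective _))
  have hp2 : p = 2 := by
    obtain ⟨a, ha⟩ := h p S₁ hS₁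
    by_contra hne
    refine hnc a fun x hx => ?_
    by_contra hxa
    refine hne (ha ⟨x, hx⟩ (fun h => hxa ?_) ⟨x, hx⟩ (fun h => hxa ?_)).1 <;>
    · obtain ⟨k, hk⟩ := h
      exact ⟨k, congrArg Subtype.val hk⟩
  haveI : IsZGroup (A ⧸ T) := by
    refine ⟨fun q hq Q₂ => ?_⟩
    haveI := Fact.mk hq
    obtain ⟨P, hP⟩ : ∃ P : Sylow q A, q = 2 → S₁ ≤ P := by
      by_cases h2 : q = 2
      · obtain rfl : q = p := h2.trans hp2.symm
        obtain ⟨P, hP⟩ := hS₁.exists_le_sylow
        exact ⟨P, fun _ => hP⟩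
      · obtain ⟨P⟩ : Nonempty (Sylow q A) := inferInstance
        exact ⟨P, fun h => absurd h h2⟩
    obtain ⟨a, ha⟩ := h q P P.2
    have hle : (P.mapSurjective (QuotientGroup.mk'_surjective T) : Subgroup (A ⧸ T)) ≤
        zpowers (QuotientGroup.mk' T a) := by
      rintro _ ⟨b, hb, rfl⟩
      have key : ∀ x : P, x ∈ zpowers a → QuotientGroup.mk' T x ∈ zpowers (QuotientGroup.mk' T a) := by
        rintro _ ⟨k, rfl⟩
        exact ⟨k, (map_zpow (QuotientGroup.mk' T) (a : A) k).symm⟩
      by_cases hba : (⟨b, hb⟩ : P) ∈ zpowers a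
      · exact key _ hba
      · have h2 := (ha _ hba _ hba).1
        obtain ⟨b₁, hb₁, hb₁a⟩ := SetLike.not_le_iff_exists.1 (hnc a)
        have h3 := key _ (ha ⟨b₁, hP h2 hb₁⟩ (fun h => hb₁a (by
          obtain ⟨k, hk⟩ := h
          exact ⟨k, congrArg Subtype.val hk⟩)) _ hba).2
        have h4 : QuotientGroup.mk' T b₁ = 1 :=
          (QuotientGroup.eq_one_iff _).2 (map_subtype_le _ hb₁)
        have h5 : QuotientGroup.mk' T (b₁ * b) ∈ zpowers (QuotientGroup.mk' T a) := h3
        rwa [map_mul, h4, one_mul] at h5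
    haveI := Subgroup.isCyclic_of_le hle
    exact isCyclic_of_surjective _
      (Sylow.equiv (P.mapSurjective (QuotientGroup.mk'_surjective T)) Q₂).surjective
  infer_instance

/-- Condition (a) or condition (b) holds for the groups without rank two. -/
theorem almost_or {G : Type} [Group G] (hS : StarG G) : P216.AlmostSimpleSolvable G ∨
    ∃ H : Subgroup G, H.FiniteIndex ∧ ∀ n : ℕ, ∃ (N : Subgroup H) (_ : N.Normal),
      N.FiniteIndex ∧ n ≤ N.index ∧ Group.IsSolvable (H ⧸ N) := by
  rw [or_iff_not_imp_right]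
  intro hb
  have hB : ∀ H : Subgroup G, H.FiniteIndex → BddSolv H := by
    intro H hH
    by_contra hcon
    refine hb ⟨H, hH, fun n => ?_⟩
    by_contra h1
    refine hcon ⟨n, fun N hN h0 hs => ?_⟩
    by_contra h2
    exact h1 ⟨N, hN, ⟨h0⟩, (not_le.1 h2).le, hs⟩
  intro U hU N _ hN S _ hS' hnc _
  haveI : Finite (U ⧸ N) := Nat.finite_of_card_ne_zero hN.index_ne_zero
  refine (solv_or (fun p _ P hP => ?_) S).resolve_left fun hs => ?_
  · have hle : N ≤ P.comap (QuotientGroup.mk' N) := fun x hx => by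
      show QuotientGroup.mk' N x ∈ P
      rw [show QuotientGroup.mk' N x = 1 from (QuotientGroup.eq_one_iff x).2 hx]
      exact one_mem _
    exact good_quot hS hB (j := U.subtype.comp (P.comap (QuotientGroup.mk' N)).subtype)
      (U.subtype_injective.comp (Subgroup.subtype_injective _))
      (fi_comp U.subtype_injective (by rwa [range_subtype]) (finiteIndex_of_le hle).index_ne_zero)
      hP ((QuotientGroup.mk' N).subgroupComap P)
      (MonoidHom.subgroupComap_surjective_of_surjective _ _ (QuotientGroup.mk'_surjective N))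
  · obtain ⟨x, y, hxy⟩ := hnc
    exact hxy (IsSimpleGroup.comm_iff_isSolvable.2 hs x y)

end Vale.Agent.P216M
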