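import Vale.Agent.P216M.Grp2
import Vale.Agent.P216.H215.PbMain2
import Vale.Agent.P216.D239.VIn
import Vale.Agent.P216.H971T.GomN
import Vale.Agent.P216.V893.Rows
import Vale.Agent.P216.B7.Main
import Vale.Agent.P216.R2.H189.Main3
import Mathlib.GroupTheory.ResiduallyFinite

/-!
# Closed three-manifolds with residually finite fundamental group
-/

set_option linter.all false

open Set Topology Bundle Manifold Matrix
open scoped ContDiff

namespace Vale.Agent.P216M

open Vale.Agent.P216

theorem residual_eq_bot {G : Type} [Group G] (h : Group.ResiduallyFinite G) :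
    finiteResidual G = ⊥ := by
  rw [eq_bot_iff]
  intro g hg
  exact Group.residuallyFinite_iff_forall_finiteIndex.1 h g fun H hH =>
    mem_finiteResidual.1 hg H hH

/-- Residually finite groups without rank two are virtually cyclic or large. -/
theorem virt_or_large {G : Type} [Group G] (hS : StarG G) (h : Group.ResiduallyFinite G) :
    (∃ H : Subgroup G, H.FiniteIndex ∧ (H = ⊥ ∨ Nonempty (Multiplicative ℤ ≃* H))) ∨
      H215.LargeGroup G := by
  have hR := residual_eq_bot h
  have e : G ⧸ finiteResidual G ≃* G :=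
    (QuotientGroup.quotientMulEquivOfEq hR).trans QuotientGroup.quotientBot
  by_cases h0 : (finiteResidual G).FiniteIndex
  · exact Or.inl ⟨_, h0, Or.inl hR⟩
  by_cases h1 : Nonempty ((G ⧸ finiteResidual G) ≃* Multiplicative ℤ)
  · obtain ⟨f⟩ := h1
    obtain ⟨H, hH, he⟩ := H215.exists_subgroup_int (e.symm.trans f)
    exact Or.inl ⟨H, hH, Or.inr he⟩
  by_cases h2 : Nonempty ((G ⧸ finiteResidual G) ≃* DihedralGroup 0)
  · obtain ⟨f⟩ := h2
    obtain ⟨H, hH, he⟩ := H215.exists_subgroup_dihedral (e.symm.trans f)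
    exact Or.inl ⟨H, hH, Or.inr he⟩
  exact Or.inr (Or.inr ⟨h0, not_nonempty_iff.1 h1, not_nonempty_iff.1 h2, almost_or hS⟩)

variable (E : Type) [NormedAddCommGroup E] [NormedSpace ℝ E] [FiniteDimensional ℝ E]
    {M : Type} [MetricSpace M] [CompactSpace M] [ChartedSpace E M] [IsManifold 𝓘(ℝ, E) ∞ M]
    [RiemannianBundle (fun x : M => TangentSpace 𝓘(ℝ, E) x)]
    [IsContMDiffRiemannianBundle 𝓘(ℝ, E) ∞ E (fun x : M => TangentSpace 𝓘(ℝ, E) x)]
    [IsRiemannianManifold 𝓘(ℝ, E) M]

include E in
theorem main_old (hn : 2 ≤ Module.finrank ℝ E) (x₀ : M)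
    (h : (∃ H : Subgroup (FundamentalGroup M x₀), H.FiniteIndex ∧
          (H = ⊥ ∨ Nonempty (Multiplicative ℤ ≃* H))) ∨
      (∃ (n : ℕ) (K : Type) (_ : Field K) (ρ : FundamentalGroup M x₀ →* GL (Fin n) K),
          Function.Injective ρ) ∨
      H215.LargeGroup (FundamentalGroup M x₀) ∨ H215.SphereCovered M) :
    (primeClosedGeodesicImages M).Infinite :=
  H215.main_pb2 E @D239.vGoal @H971T.infinite_three @B7.virtZGoal @V893.thmBGoal hn x₀ h

include E in
/-- **Closed three-manifolds with residually finite fundamental group.** -/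
theorem main_three (h3 : Module.finrank ℝ E = 3) (x₀ : M)
    (h : Group.ResiduallyFinite (FundamentalGroup M x₀)) :
    (primeClosedGeodesicImages M).Infinite := by
  refine main_old E (by omega) x₀ ?_
  rcases virt_or_large (starG_three E h3 x₀) h with h | h
  · exact Or.inl h
  · exact Or.inr (Or.inr (Or.inl h))

include E in
/-- **Closed three-manifolds**, all the cases which only depend on the finite residual. -/
theorem main_three' (h3 : Module.finrank ℝ E = 3) (x₀ : M)
    (h : Group.ResiduallyFinite (FundamentalGroup M x₀) ∨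
      ⁅finiteResidual (FundamentalGroup M x₀), finiteResidual (FundamentalGroup M x₀)⁆ ≠
        finiteResidual (FundamentalGroup M x₀) ∨
      (∃ K : Subgroup (finiteResidual (FundamentalGroup M x₀)), K.FiniteIndex ∧ K ≠ ⊤) ∨
      (¬ (finiteResidual (FundamentalGroup M x₀)).FiniteIndex ∧
        IsEmpty ((FundamentalGroup M x₀ ⧸ finiteResidual (FundamentalGroup M x₀)) ≃*
          Multiplicative ℤ) ∧
        IsEmpty ((FundamentalGroup M x₀ ⧸ finiteResidual (FundamentalGroup M x₀)) ≃*
          DihedralGroup 0))) :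
    (primeClosedGeodesicImages M).Infinite := by
  have hS := almost_or (starG_three E h3 x₀)
  rcases h with h | h | h | ⟨h1, h2, h4⟩
  · exact main_three E h3 x₀ h
  · exact R2.H189.V3.main E x₀ (MonoidHom.id _) Function.surjective_id
      (Or.inl (Or.inr ⟨Or.inl h, hS⟩))
  · exact R2.H189.V3.main E x₀ (MonoidHom.id _) Function.surjective_id
      (Or.inl (Or.inr ⟨Or.inr h, hS⟩))
  · exact main_old E (by omega) x₀ (Or.inr (Or.inr (Or.inl (Or.inr ⟨h1, h2, h4, hS⟩))))

end Vale.Agent.P216M
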