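import Vale.Agent.P216.Ch2.D246.Dim

/-!
# The top cohomology of a closed manifold on which the `kˣ`-valued cocycles are coboundaries
-/

set_option linter.all false

open Set Filter Topology

namespace Vale.Agent.P216M

open Vale.Agent.P216 Vale.Agent.P216.Ch2
open Vale.Agent.P216.D246

open Vale.Agent.P216.AS Vale.Agent.P216.Ch2.AS Vale.Agent.P216.H901 Vale.Agent.P216.Ch2.H901 Vale.Agent.P216.H83 Vale.Agent.P216.Ch2.H83 Vale.Agent.P216.Sl Vale.Agent.P216.PS Vale.Agent.P216.H133C Vale.Agent.P216.Ch2.H133C Vale.Agent.P216.C313 Vale.Agent.P216.Ch2.C313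
open Vale.Agent.P216.Ch2.D246 Vale.Agent.P216.Ch2.D246.Cub

/-- All the locally constant cocycles with values in `G` are coboundaries. -/
def HasSec (B G : Type) [TopologicalSpace B] [Group G] : Prop :=
  ∀ (ι : Type) (U : ι → Set B), (∀ i, IsOpen (U i)) → (∀ b, ∃ i, b ∈ U i) →
    ∀ T : ι → ι → B → G, (∀ i j, ∀ b ∈ U i ∩ U j, ∀ᶠ b' in 𝓝 b, T i j b' = T i j b) →
      (∀ i, ∀ b ∈ U i, T i i b = 1) →
      (∀ i j l, ∀ b ∈ U i ∩ U j ∩ U l, T i j b * T j l b = T i l b) →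
      ∃ σ : ι → B → G, (∀ i, ∀ b ∈ U i, ∀ᶠ b' in 𝓝 b, σ i b' = σ i b) ∧
        ∀ i j, ∀ b ∈ U i ∩ U j, σ i b = T i j b * σ j b

/-- **Orientation.** -/
theorem exists_orient' {M : Type} [MetricSpace M] [CompactSpace M]
    {n : ℕ} {k : Type} [Field k] (HS : HasSec M kˣ) (h2 : Ok k)
    (loc : Ch2.D246.LocEuc M n) (e : Hr (tr (Unit × (Fin n → ℝ))) (on k) (cbE n (univ : Set Unit))
      (bdE n univ ∅) n ≃ₗ[k] k) :
    ∃ o : Ch2.D246.Cub M n → k, (∀ c, o c ≠ 0) ∧ ∀ (c c' : Ch2.D246.Cub M n) (w : Fin n → ℝ) (η : ℝ) (hη : 0 < η)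
      (hb : ‖w‖ + η ≤ 2) (hs : c.A1 0 2 ⊆ c'.A1 w η),
      o c * cc e c two_pos h02 (resR subset_rfl hs n (gb e h2 c' hη hb)) = o c' := by
  classical
  let U : Ch2.D246.Cub M n → Set M := fun c => {x | x ∈ c.D ∧ ‖c.φ x‖ < 2}
  have hex : ∀ (i j : Ch2.D246.Cub M n) (b : M), b ∈ U i ∩ U j → ∃ t : kˣ, Trn e h2 i j b t := by
    rintro i j b ⟨h1, h3⟩
    obtain ⟨t, ht⟩ := exists_trn e h2 h1.1 h1.2 h3.1 h3.2
    exact ⟨Units.mk0 t (trn_ne e h2 h1.1 h1.2 h3.1 h3.2 ht), ht⟩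
  let T : Ch2.D246.Cub M n → Ch2.D246.Cub M n → M → kˣ := fun i j b =>
    if h : ∃ t : kˣ, Trn e h2 i j b t then h.choose else 1
  have hT : ∀ (i j : Ch2.D246.Cub M n) (b : M), b ∈ U i ∩ U j → Trn e h2 i j b (T i j b : k) := by
    intro i j b hb
    have h := hex i j b hb
    have e1 : T i j b = h.choose := dif_pos h
    rw [e1]
    exact h.choose_spec
  have hTu : ∀ (i j : Ch2.D246.Cub M n) (b : M) (t : kˣ), b ∈ U i ∩ U j → Trn e h2 i j b (t : k) →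
      T i j b = t := fun i j b t hb ht => Units.ext (trn_uniq e h2 (hT i j b hb) ht)
  obtain ⟨σ, hσ1, hσ2⟩ := HS _ U (fun c => c.open_int)
    (fun b => by
      obtain ⟨c, hc, hc'⟩ := loc b
      exact ⟨c, hc, by rw [hc', norm_zero]; exact two_pos⟩) T
    (fun i j b hb => by
      obtain ⟨w, η, hη, hb', hs, hc, hw, ht⟩ := hT i j b hb
      have hO := isOpen_box (c := j) hb'
      filter_upwards [hO.mem_nhds ⟨hc, hw⟩, i.open_int.mem_nhds hb.1, j.open_int.mem_nhds hb.2]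
        with b' h1 h3 h4
      exact hTu i j b' _ ⟨h3, h4⟩ ⟨w, η, hη, hb', hs, h1.1, h1.2, ht⟩)
    (fun i b hb => hTu i i b 1 ⟨hb, hb⟩ (trn_self e h2 hb.1 hb.2))
    (fun i j l b hb => (hTu i l b _ ⟨hb.1.1, hb.2⟩ (by
      rw [Units.val_mul]
      exact trn_trans e h2 (hT i j b hb.1) (hT j l b ⟨hb.1.2, hb.2⟩))).symm)
  have hconst : ∀ (c : Ch2.D246.Cub M n) (b b' : M), b ∈ U c → b' ∈ U c → σ c b = σ c b' := by
    intro c b b' hb hb'
    letI : TopologicalSpace kˣ := ⊥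
    haveI : DiscreteTopology kˣ := ⟨rfl⟩
    refine (preconn_int (c := c)).constant (f := σ c) (fun x hx => ?_) hb hb'
    apply ContinuousAt.continuousWithinAt
    exact continuousAt_const.congr ((hσ1 c x hx).mono fun y hy => hy.symm)
  refine ⟨fun c => ((σ c (c.ψ 0))⁻¹ : kˣ), fun c => Units.ne_zero _, ?_⟩
  intro c c' w η hη hb hs
  have hz : ∀ c : Ch2.D246.Cub M n, c.ψ 0 ∈ U c := fun c => by
    obtain ⟨h1, h3⟩ := ctr_box (c := c) (v := 0) two_pos h02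
    exact ⟨h1, by rw [h3, norm_zero]; exact two_pos⟩
  obtain ⟨h1, h3⟩ := ctr_box (c := c') hη hb
  have h4 : c'.ψ w ∉ c'.A1 w η := notMem_A1 h1 (by rw [h3, sub_self, norm_zero]; exact hη)
  have h5 := of_notMem_A1 fun h => h4 (hs h)
  rw [sub_zero] at h5
  have h6 : c'.ψ w ∈ U c' := ⟨h1, by rw [h3]; linarith⟩
  have h7 : Trn e h2 c c' (c'.ψ w) (cc e c two_pos h02 (resR subset_rfl hs n (gb e h2 c' hη hb))) :=
    ⟨w, η, hη, hb, hs, h1, by rw [h3, sub_self, norm_zero]; exact hη, rfl⟩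
  have h8 := trn_uniq e h2 h7 (hT c c' _ ⟨h5, h6⟩)
  have h9 := hσ2 c c' (c'.ψ w) ⟨h5, h6⟩
  beta_reduce
  rw [h8, hconst c (c.ψ 0) (c'.ψ w) (hz c) h5, hconst c' (c'.ψ 0) (c'.ψ w) (hz c') h6, h9]
  rw [← Units.val_mul]
  congr 1
  rw [mul_inv_rev, mul_assoc, inv_mul_cancel, mul_one]

variable {M : Type} [MetricSpace M] [CompactSpace M] {n : ℕ} {k : Type} [Field k]

section

variable (e : Hr (tr (Unit × (Fin n → ℝ))) (on k) (cbE n (univ : Set Unit))
    (bdE n univ ∅) n ≃ₗ[k] k)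

/-- The top class of a chart is not zero. -/
theorem lesA_gb_ne' (HS : HasSec M kˣ) (h2 : Ok k)
    (hn : 1 ≤ n) (loc : Ch2.D246.LocEuc M n) (c : Ch2.D246.Cub M n) :
    lesA k (univ : Set M) (c.A1 0 2) n (gb e h2 c two_pos h02) ≠ 0 := by
  classical
  obtain ⟨o, ho, ho'⟩ := exists_orient' HS h2 loc e
  have loc' := loc
  choose C hC hC0 using loc
  have h01 : ‖(0 : Fin n → ℝ)‖ + 1 ≤ 2 := by rw [norm_zero]; norm_num
  have hcl : ∀ T : Finset M, IsCompact {a : M | ∀ b ∈ T, a ∈ (C b).A1 0 1} := by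
    intro T
    have : {a : M | ∀ b ∈ T, a ∈ (C b).A1 0 1} = ⋂ b ∈ T, (C b).A1 0 1 := by
      ext a
      simp
    rw [this]
    exact (isClosed_biInter fun b _ => (compact_A1 h01).isClosed).isCompact
  have hone : ∀ c : Ch2.D246.Cub M n, Cns e h2 o (c.A1 0 1) (o c • cc e c one_pos h01) := by
    intro c c' w η hη hb hs
    have i1 : ‖(0 : Fin n → ℝ) - 0‖ + 1 ≤ 2 := by rwa [sub_zero]
    rw [LinearMap.smul_apply, smul_eq_mul, ← cc_res e one_pos two_pos i1 h02 h01 (A1_anti i1),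
      resR_resR]
    exact ho' c c' w η hη hb _
  have main : ∀ T : Finset M, ∃ I : Hr (tr M) (on k) (univ : Set M)
      {a : M | ∀ b ∈ T, a ∈ (C b).A1 0 1} n →ₗ[k] k, Cns e h2 o _ I := by
    intro T
    induction T using Finset.induction_on with
    | empty =>
      refine ⟨0, fun c w η hη hb hs => ?_⟩
      obtain ⟨h1, h3⟩ := ctr_box (c := c) hη hb
      exact absurd (hs (show c.ψ w ∈ {a : M | ∀ b ∈ (∅ : Finset M), a ∈ (C b).A1 0 1} from
        fun b hb => absurd hb (Finset.notMem_empty b)))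
        (notMem_A1 h1 (by rw [h3, sub_self, norm_zero]; exact hη))
    | insert b T hb ih =>
      obtain ⟨IL, hIL⟩ := ih
      obtain ⟨I, hI⟩ := cns_inter e h2 hn loc' (compact_A1 (c := C b) h01) (hcl T)
        (noH_top' h2 hn one_le_two (hcl T)) (hone (C b)) hIL
      have e1 : {a : M | ∀ d ∈ insert b T, a ∈ (C d).A1 0 1} =
          (C b).A1 0 1 ∩ {a | ∀ d ∈ T, a ∈ (C d).A1 0 1} := by
        ext a
        simp
      rw [e1]
      exact ⟨I, hI⟩
  obtain ⟨T, hT⟩ := isCompact_univ.elim_nhds_subcover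
    (fun b : M => {a | a ∈ (C b).D ∧ ‖(C b).φ a - 0‖ < 1}) fun b _ => by
      refine (isOpen_box h01).mem_nhds ⟨hC b, ?_⟩
      rw [hC0, sub_zero, norm_zero]
      exact one_pos
  have hB : {a : M | ∀ b ∈ T, a ∈ (C b).A1 0 1} ⊆ (∅ : Set M) := by
    intro a ha
    obtain ⟨b, hb, hb'⟩ := mem_iUnion₂.1 (hT.2 (mem_univ a))
    exact absurd (ha b hb hb'.1) (not_le.2 hb'.2)
  obtain ⟨I, hI⟩ := main T
  intro h0
  have h1 := hI c 0 2 two_pos h02 (hB.trans (empty_subset _))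
  have e1 : resR subset_rfl (hB.trans (empty_subset _)) n (gb e h2 c two_pos h02) =
      resR subset_rfl hB n (lesA k (univ : Set M) (c.A1 0 2) n (gb e h2 c two_pos h02)) := by
    rw [lesA, resR_resR]
  rw [e1, h0, map_zero, map_zero] at h1
  exact ho c h1.symm

end

/-- The top cohomology is not zero. -/
theorem exists_not_exL' [Nonempty M] (HS : HasSec M kˣ) (h2 : Ok k)
    (hn : 1 ≤ n) (loc : Ch2.D246.LocEuc M n) :
    ∃ w : List M → k, Nrm w ∧ CocL (univ : Set M) n w ∧ ¬ ExL (univ : Set M) n w := by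
  obtain ⟨ω, hω⟩ : ∃ ω : Hr (tr M) (on k) (univ : Set M) ∅ n, ω ≠ 0 := by
    obtain ⟨e⟩ := cube_equiv (k := k) h2 n
    obtain ⟨b⟩ : Nonempty M := inferInstance
    obtain ⟨c, -, -⟩ := loc b
    exact ⟨_, lesA_gb_ne' e HS h2 hn loc c⟩
  obtain ⟨w, hw, hN, h⟩ := exists_cls ((absE k (univ : Set M) n).symm ω)
  refine ⟨w, hN, hw, fun hex => hω ?_⟩
  rw [cls_eq_zero.2 hex] at h
  rw [← (absE k (univ : Set M) n).apply_symm_apply ω, ← h, map_zero]

end Vale.Agent.P216M
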