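import Vale.Agent.P216.H126T.PD

/-!
# Poincare duality for list cochains, with a fixed fundamental cycle

`pd_core`: for each scale `εu` there is a scale `ε₁` and, for each `δ`, a `δ`-fine cycle `z` of top
degree such that a normalised `εu`-cocycle `u` is exact as soon as all the `ε₁`-cocycles of the
complementary degree vanish on the cap product of `u` and `z`.
-/

set_option linter.all false

open Set Finsupp

namespace Vale.Agent.P216M

open Vale.Agent.P216 Vale.Agent.P216.H126T
open Vale.Agent.P216.Sl Vale.Agent.P216.PS
open Vale.Agent.P216.N929 (Fine Coc Cy Tau dl_congr bd_eq_zero ex_iff not_ex_iff)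

variable {k : Type} [Field k] {N : Type} [MetricSpace N]

/-- **Poincare duality.** -/
theorem pd_core [PreconnectedSpace N] {n q : ℕ} (hq : 1 ≤ q) (hqn : q + 1 ≤ n)
    {w : List N → k} (hw0 : ¬ ExL (univ : Set N) n w)
    (HT : ∀ ρ₁ > 0, ∃ (τ : Tau k N n ρ₁) (y : N), ExL (univ : Set N) n fun l =>
      τ.f (l.map fun x => (x, y)) - w l) {εu : ℝ} (hεu : 0 < εu) :
    ∃ ε₁ > 0, ∀ δ > 0, ∃ z : Ch k N, Cy univ δ n z ∧ ∀ u : List N → k, Nrm u →
      Coc univ εu q u → (∀ f : List N → k, Coc univ ε₁ (n - q) f → ev f (cap q u z) = 0) →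
      ExL (univ : Set N) q u := by
  obtain ⟨τ, y₀, gτ, -, ετ, hετ, hτ⟩ := HT (εu / 4) (by positivity)
  refine ⟨τ.ε, τ.hε, fun δ hδ => ?_⟩
  obtain ⟨r, hr, r1, r2, r3, r4⟩ : ∃ r > 0, r ≤ δ ∧ r ≤ τ.ε ∧ r ≤ ετ ∧ r ≤ εu / 4 :=
    ⟨min (min δ τ.ε) (min ετ (εu / 4)), lt_min (lt_min hδ τ.hε) (lt_min hετ (by positivity)),
      (min_le_left _ _).trans (min_le_left _ _), (min_le_left _ _).trans (min_le_right _ _),
      (min_le_right _ _).trans (min_le_left _ _), (min_le_right _ _).trans (min_le_right _ _)⟩
  obtain ⟨z, hz, hzw⟩ := not_ex_iff.1 hw0 r hr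
  refine ⟨z, hz.mono subset_rfl r1, fun u hN hu HB => ?_⟩
  have hbz : bd z = 0 := bd_eq_zero hz (by omega)
  -- the slices
  have hs : ∀ y, ev (fun l => τ.f (l.map fun x => (x, y))) z = ev w z := by
    intro y
    rw [slice_const (by omega) τ.hε r2 τ.coc hz y y₀]
    have h1 : ev (fun l => τ.f (l.map fun x => (x, y₀)) - w l) z = 0 := by
      rw [ev_congr (g := dl gτ) (fun l hl => hτ l hl.1 (hl.2.mono subset_rfl r3)) hz.1, ev_dl, hbz,
        map_zero]
    have h2 : ev (fun l => τ.f (l.map fun x => (x, y₀)) - w l) z =
        ev (fun l => τ.f (l.map fun x => (x, y₀))) z - ev w z := by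
      have := ev_add_fun (k := k) (fun l => τ.f (l.map fun x => (x, y₀))) (fun l => (-1) * w l) z
      rw [ev_smul_fun] at this
      rw [show (fun l => τ.f (l.map fun x => (x, y₀)) - w l) =
        fun l => τ.f (l.map fun x => (x, y₀)) + (-1) * w l by funext l; ring, this]
      ring
    rw [h2, sub_eq_zero] at h1
    exact h1
  rw [← ex_iff]
  refine ⟨r, hr, fun c hc => ?_⟩
  have hbc : bd c = 0 := bd_eq_zero hc (by omega)
  set F₁ : List (N × N) → k := N929.cup q (fun l => u (l.map Prod.fst)) τ.f with hF₁
  set F₂ : List (N × N) → k := N929.cup q (fun l => u (l.map Prod.snd)) τ.f with hF₂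
  set Z : Ch k (N × N) := sh z c with hZ
  have hbZ : bd Z = 0 := by
    rw [hZ, bd_sh (p := n) (q := q) (by omega) (Sp_mono (fun l hl => hl.1) hz.1)
      (Sp_mono (fun l hl => hl.1) hc.1), hbz, hbc, LinearMap.map_zero₂, map_zero, smul_zero,
      add_zero]
  have hZm : Z ∈ Sp k fun l : List (N × N) => l.length = n + q + 1 ∧ Fine univ r l := by
    refine sh_mem (fun s t l hs ht hl => ?_) hz.1 hc.1
    refine ⟨?_, fine_prod hs.2 ht.2 le_rfl le_rfl hl⟩
    have := hl.1
    rw [hs.1, ht.1] at this
    omega
  -- first coordinate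
  have e1 : ev F₁ Z = 0 := by
    have h1 : ev F₁ Z = ev τ.f (sh (cap q u z) c) := by
      have := bilin_eq_of_mem (P := fun s : List N => s.length = n + 1)
        (Q := fun t : List N => t.length = q + 1)
        (F := (sh (k := k) (α := N) (β := N)).compr₂ (ev F₁))
        (G := ((sh (k := k) (α := N) (β := N)).compr₂ (ev τ.f)).comp (cap q u))
        (fun s t hs ht => by
          rw [LinearMap.compr₂_apply, sh_single, LinearMap.comp_apply, LinearMap.compr₂_apply,
            cap_single]
          have hs' : s ≠ [] := fun h => by rw [h] at hs; simp at hs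
          have ht' : t ≠ [] := fun h => by rw [h] at ht; simp at ht
          have h2 := front_left (k := k) hN τ.f q s t (by omega) hs' ht'
          rw [if_pos (by omega)] at h2
          have h3 : ev F₁ (Sh s t) = u (s.take (q + 1)) * ev τ.f (Sh (s.drop q) t) := h2
          rw [h3, ← mul_one (u (s.take (q + 1))), ← smul_eq_mul (u (s.take (q + 1))) 1,
            ← Finsupp.smul_single, map_smul, LinearMap.smul_apply, sh_single, map_smul, smul_eq_mul,
            smul_eq_mul, mul_one])
        (Sp_mono (fun l hl => hl.1) hz.1) (Sp_mono (fun l hl => hl.1) hc.1)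
      simpa only [LinearMap.compr₂_apply, LinearMap.comp_apply] using this
    have h6 : ev (fun l : List N => ev τ.f (sh (single l (1 : k)) c)) (cap q u z) =
        ev τ.f (sh (cap q u z) c) := by
      have := lin_ext_apply (f := ev (fun l : List N => ev τ.f (sh (single l (1 : k)) c)))
        (g := (ev τ.f).comp ((sh (k := k) (α := N) (β := N)).flip c)) (fun l => by
          rw [ev_single, one_mul, LinearMap.comp_apply, LinearMap.flip_apply]) (cap q u z)
      simpa only [LinearMap.comp_apply, LinearMap.flip_apply] using this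
    rw [h1, ← h6]
    refine HB _ fun l hl hf => ?_
    have h7 : dl (fun l : List N => ev τ.f (sh (single l (1 : k)) c)) l =
        ev τ.f (sh (bdL l) c) := by
      have := lin_ext_apply (f := ev (fun l : List N => ev τ.f (sh (single l (1 : k)) c)))
        (g := (ev τ.f).comp ((sh (k := k) (α := N) (β := N)).flip c)) (fun l => by
          rw [ev_single, one_mul, LinearMap.comp_apply, LinearMap.flip_apply]) (bdL l)
      rw [LinearMap.comp_apply, LinearMap.flip_apply] at this
      exact this
    have hb : (single l (1 : k) : Ch k N) ∈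
        Sp k (fun l : List N => l.length = n - q + 2 ∧ Fine univ τ.ε l) := single_mem ⟨hl, hf⟩ _
    have h4 := bd_sh (k := k) (p := n - q + 1) (q := q) (by omega)
      (Sp_mono (fun l hl => hl.1) hb) (Sp_mono (fun l hl => hl.1) hc.1)
    rw [hbc, map_zero, smul_zero, add_zero, bd_single, one_smul] at h4
    rw [h7, ← h4, ← ev_dl]
    refine ev_zero_of (P := fun l : List (N × N) => l.length = n + 2 ∧ Fine univ τ.ε l)
      (fun l hl => τ.coc l hl.1 hl.2) ?_
    refine sh_mem (fun s t l hs ht hl => ?_) hb hc.1
    refine ⟨?_, fine_prod hs.2 ht.2 le_rfl r2 hl⟩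
    have := hl.1
    rw [hs.1, ht.1] at this
    omega
  -- second coordinate
  have e2 : ev F₂ Z = (-1 : k) ^ ((n + 2) * q) * (ev w z * ev u c) := by
    have h1 : ∀ t : List N, t.length = q + 1 → ev F₂ (sh z (single t (1 : k))) =
        (-1 : k) ^ ((n + 2) * q) * (ev w z * u t) := by
      intro t ht
      obtain ⟨y, hy⟩ : ∃ y, t.drop q = [y] := by
        apply List.length_eq_one_iff.1
        rw [List.length_drop, ht]
        omega
      have h2 := eq_of_mem (P := fun s : List N => s.length = n + 1)
        (F := (ev F₂).comp ((sh (k := k) (α := N) (β := N)).flip (single t (1 : k))))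
        (G := ((-1 : k) ^ ((n + 2) * q) * u t) • ev (fun l => τ.f (l.map fun x => (x, y))))
        (fun s hs => by
          rw [LinearMap.comp_apply, LinearMap.flip_apply, sh_single, LinearMap.smul_apply, ev_single,
            one_mul, smul_eq_mul]
          have hs' : s ≠ [] := fun h => by rw [h] at hs; simp at hs
          have ht' : t ≠ [] := fun h => by rw [h] at ht; simp at ht
          have h3 := front_right (k := k) hN τ.f q s t (by omega) hs' ht'
          rw [if_pos (by omega), hy, Sh_point_right y hs', ev_single, one_mul, hs,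
            List.take_of_length_le (by omega)] at h3
          have h4 : ev F₂ (Sh s t) = (-1 : k) ^ ((n + 1 + 1) * q) *
            (u t * τ.f (s.map fun a => (a, y))) := h3
          rw [h4, mul_assoc])
        (Sp_mono (fun l hl => hl.1) hz.1)
      rw [LinearMap.comp_apply, LinearMap.flip_apply, LinearMap.smul_apply, hs y,
        smul_eq_mul] at h2
      rw [h2]
      ring
    have h5 := eq_of_mem (P := fun t : List N => t.length = q + 1)
      (F := (ev F₂).comp (sh (k := k) (α := N) (β := N) z))
      (G := ((-1 : k) ^ ((n + 2) * q) * ev w z) • ev u)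
      (fun t ht => by
        rw [LinearMap.comp_apply, h1 t ht, LinearMap.smul_apply, ev_single, one_mul, smul_eq_mul]
        ring) (Sp_mono (fun l hl => hl.1) hc.1)
    rw [LinearMap.comp_apply, LinearMap.smul_apply, smul_eq_mul] at h5
    rw [hZ, h5]
    ring
  -- the homotopy
  have e3 : ev F₂ Z = ev F₁ Z := by
    have h1 : ev (dl (N929.cup (q - 1) (pru u) τ.f)) Z =
        ev (fun l => (-1 : k) ^ (q + 1) * (F₂ l + (-1) * F₁ l)) Z := by
      refine ev_congr (P := fun l : List (N × N) => l.length = n + q + 1 ∧ Fine univ r l)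
        (fun l hl => ?_) hZm
      obtain ⟨hl1, hl2⟩ := hl
      have hq1 : q - 1 + 1 = q := by omega
      have hq2 : q - 1 + 2 = q + 1 := by omega
      have h2 := N929.dl_cup (q - 1) (pru u) τ.f l (by omega)
      rw [hq1, hq2] at h2
      have h3 : dl τ.f (l.drop (q - 1)) = 0 := by
        refine τ.coc _ (by rw [List.length_drop]; omega) ?_
        exact (hl2.sub fun x hx => List.mem_of_mem_drop hx).mono subset_rfl r2
      rw [h2, h3, mul_zero, mul_zero, add_zero]
      by_cases h0 : τ.f (l.drop q) = 0
      · simp only [hF₁, hF₂, N929.cup, h0, mul_zero, add_zero]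
      · have hne : l.drop q ≠ [] := fun h => by
          have := congrArg List.length h
          rw [List.length_drop, List.length_nil] at this
          omega
        obtain ⟨p, hp⟩ := List.exists_mem_of_ne_nil _ hne
        have hpd : dist p.1 p.2 < εu / 4 := by
          by_contra hcon
          exact h0 (τ.supp _ ⟨p, hp, not_lt.1 hcon⟩)
        have hpl : p ∈ l := List.mem_of_mem_drop hp
        have hd : ∀ p' ∈ l, dist p'.1 p'.2 < 2 * r + εu / 4 := by
          intro p' hp'
          have a1 := hl2.2 p' hp' p hpl
          rw [Prod.dist_eq] at a1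
          have a2 := (le_max_left _ _).trans_lt a1
          have a3 := (le_max_right _ _).trans_lt a1
          have a4 := dist_triangle4 p'.1 p.1 p.2 p'.2
          rw [dist_comm p.2 p'.2] at a4
          linarith
        have hne' : l.take (q + 1) ≠ [] := fun h => by
          have := congrArg List.length h
          rw [List.length_take, List.length_nil] at this
          omega
        have hlen : (l.take (q + 1)).length = q + 1 := by
          rw [List.length_take]; omega
        have h5 := dl_pru (k := k) (u := u) hne' (fun l' hl' hx => by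
          refine hu l' (by omega) ⟨fun _ _ => mem_univ _, fun a ha b hb => ?_⟩
          obtain ⟨p₁, hp₁, ha⟩ := hx a ha
          obtain ⟨p₂, hp₂, hb⟩ := hx b hb
          have b1 := List.mem_of_mem_take hp₁
          have b2 := List.mem_of_mem_take hp₂
          have a1 := hl2.2 p₁ b1 p₂ b2
          rw [Prod.dist_eq] at a1
          have a2 := (le_max_left _ _).trans_lt a1
          have a3 := (le_max_right _ _).trans_lt a1
          have a4 := hd p₁ b1
          have a5 := hd p₂ b2
          rcases ha with rfl | rfl <;> rcases hb with rfl | rfl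
          · linarith
          · have := dist_triangle p₁.1 p₂.1 p₂.2
            linarith
          · have := dist_triangle p₁.2 p₁.1 p₂.1
            rw [dist_comm p₁.2 p₁.1] at this
            linarith
          · linarith)
        rw [h5, hlen]
        simp only [hF₁, hF₂, N929.cup]
        ring
    rw [ev_dl, hbZ, map_zero, ev_smul_fun, ev_add_fun, ev_smul_fun] at h1
    have h2 := (mul_eq_zero.1 h1.symm).resolve_left (pow_ne_zero _ (neg_ne_zero.2 one_ne_zero))
    linear_combination h2
  rw [e2, e1, mul_eq_zero, or_iff_right (pow_ne_zero _ (neg_ne_zero.2 one_ne_zero)), mul_eq_zero,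
    or_iff_right hzw] at e3
  exact e3

end Vale.Agent.P216M
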