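import Vale.Agent.P216M.Gal
import Vale.Agent.P216M.PD
import Vale.Agent.P216M.Ext
import Vale.Agent.P216.H126T.H1

/-!
# No closed three-manifold group is an extension of `(ℤ/p)²` by a group without finite commutative
quotients
-/

set_option linter.all false

open Set Finsupp

namespace Vale.Agent.P216M

open Vale.Agent.P216 Vale.Agent.P216.H126T
open Vale.Agent.P216.Sl Vale.Agent.P216.PS
open Vale.Agent.P216.N929 (Fine Coc Cy Tau dl_congr bd_eq_zero ex_iff not_ex_iff)

section

variable {k N : Type} [Field k]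

/-- A function of two points as a cochain. -/
def c2 (f : N → N → k) : List N → k
  | [a, b] => f a b
  | _ => 0

/-- A function of three points as a cochain. -/
def c3 (f : N → N → N → k) : List N → k
  | [a, b, d] => f a b d
  | _ => 0

/-- A function of one point as a cochain. -/
def c1 (f : N → k) : List N → k
  | [a] => f a
  | _ => 0

theorem dl_quad (f : List N → k) (x y z w : N) :
    dl f [x, y, z, w] = f [y, z, w] - f [x, z, w] + f [x, y, w] - f [x, y, z] := by
  rw [N929.dl_cons, N929.dl_cons, N929.dl_cons, N929.dl_cons, N929.dl_nil]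
  ring

theorem nrm_c3 {f : N → N → N → k} (h1 : ∀ a b, f a a b = 0) (h2 : ∀ a b, f a b b = 0) :
    Nrm (c3 f) := by
  intro l hl
  match l, hl with
  | [], _ => rfl
  | [_], _ => rfl
  | [_, _], _ => rfl
  | [a, b, d], hl =>
    show f a b d = 0
    by_cases hab : a = b
    · rw [hab, h1]
    · by_cases hbd : b = d
      · rw [hbd, h2]
      · exact absurd (by simp [hab, hbd]) hl
  | _ :: _ :: _ :: _ :: _, _ => rfl

theorem c3_lin (α β γ : k) (f g h : N → N → N → k) (l : List N) :
    c3 (fun a b d => α * f a b d + β * g a b d + γ * h a b d) l =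
      α * c3 f l + β * c3 g l + γ * c3 h l := by
  match l with
  | [] => simp [c3]
  | [_] => simp [c3]
  | [_, _] => simp [c3]
  | [a, b, d] => rfl
  | _ :: _ :: _ :: _ :: _ => simp [c3]

theorem ev_cap_lin (α β γ : k) (f g h : N → N → N → k) (v : List N → k) (z : Ch k N) :
    ev v (cap 2 (c3 fun a b d => α * f a b d + β * g a b d + γ * h a b d) z) =
      α * ev v (cap 2 (c3 f) z) + β * ev v (cap 2 (c3 g) z) + γ * ev v (cap 2 (c3 h) z) := by
  simp only [ev_cap]
  rw [← ev_smul_fun, ← ev_smul_fun, ← ev_smul_fun, ← ev_add_fun, ← ev_add_fun]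
  congr 2
  funext l
  simp only [N929.cup, c3_lin]
  ring

end

/-- **No rank two.** -/
theorem star {H U N : Type} [Group H] [TopologicalSpace U] [MulAction H U]
    [SimplyConnectedSpace U] [LocallyPathConnectedSpace U] [T2Space U] [MetricSpace N]
    [CompactSpace N] [LocallyConnectedSpace N] (g : Gal H U N) (loc : Ch2.D246.LocEuc N 3)
    {p : ℕ} [Fact p.Prime] {π : H →* Sq p} (hπ : Function.Surjective π) (hR : NoAb π.ker) :
    False := by
  haveI : ConnectedSpace N := g.surj.connectedSpace g.loc.continuous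
  obtain ⟨w, -, hw, hw0⟩ := exists_not_exL' (k := ZMod p) (g.hasSec (hom_units hR)) (Ch2.ok _)
    (by norm_num) loc
  obtain ⟨c, r, hc⟩ := g.exists_univ
  obtain ⟨y⟩ : Nonempty N := inferInstance
  obtain ⟨ε₁, hε₁, hpd⟩ := pd_core (n := 3) (q := 2) (by norm_num) (by norm_num) hw0
    (fun ρ₁ hρ₁ => by
      obtain ⟨τ, hτ⟩ := Ch2.D246.exists_tau (Ch2.ok _) (by norm_num) loc hw hw0 hρ₁
      exact ⟨τ, y, hτ y⟩) hc.pos
  obtain ⟨δ, hδ, hup⟩ := hc.up ε₁ hε₁
  obtain ⟨z, hz, hpd⟩ := hpd (min δ r) (lt_min hδ hc.pos)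
  have hbz : bd z = 0 := bd_eq_zero hz (by norm_num)
  let uX : List N → ZMod p := c2 fun a b => cX (π (c a b))
  let uY : List N → ZMod p := c2 fun a b => cY (π (c a b))
  let f₁ : N → N → N → ZMod p := fun a b d => cX (π (c a b)) * cY (π (c b d))
  let f₂ : N → N → N → ZMod p := fun a b d => car (cX (π (c a b))) (cX (π (c b d)))
  let f₃ : N → N → N → ZMod p := fun a b d => car (cY (π (c a b))) (cY (π (c b d)))
  obtain ⟨α, β, γ, h0, hX, hY⟩ := exists_dep (ev uX (cap 2 (c3 f₁) z)) (ev uX (cap 2 (c3 f₂) z))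
    (ev uX (cap 2 (c3 f₃) z)) (ev uY (cap 2 (c3 f₁) z)) (ev uY (cap 2 (c3 f₂) z))
    (ev uY (cap 2 (c3 f₃) z))
  rw [← ev_cap_lin] at hX hY
  let u : List N → ZMod p := c3 fun a b d => (sig α β γ).f (π (c a b)) (π (c b d))
  have hX' : ev uX (cap 2 u z) = 0 := hX
  have hY' : ev uY (cap 2 u z) = 0 := hY
  have hN : Nrm u := nrm_c3 (fun a b => by rw [hc.self, map_one, (sig α β γ).l])
    (fun a b => by rw [hc.self, map_one, (sig α β γ).r])
  have hu : Coc univ r 2 u := by
    intro l hl hf
    obtain ⟨a, b, d, e, rfl⟩ : ∃ a b d e, l = [a, b, d, e] := by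
      match l, hl with
      | [a, b, d, e], _ => exact ⟨a, b, d, e, rfl⟩
    have m1 := hc.mul a b d (hf.2 a (by simp) b (by simp)) (hf.2 a (by simp) d (by simp))
      (hf.2 b (by simp) d (by simp))
    have m2 := hc.mul b d e (hf.2 b (by simp) d (by simp)) (hf.2 b (by simp) e (by simp))
      (hf.2 d (by simp) e (by simp))
    rw [dl_quad]
    show (sig α β γ).f (π (c b d)) (π (c d e)) - (sig α β γ).f (π (c a d)) (π (c d e)) +
      (sig α β γ).f (π (c a b)) (π (c b e)) - (sig α β γ).f (π (c a b)) (π (c b d)) = 0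
    rw [← m1, ← m2, map_mul, map_mul]
    exact (sig α β γ).co _ _ _
  have hcap : cap 2 u z ∈ Sp (ZMod p) fun l : List N => l.length = 2 ∧ Fine univ (min δ r) l :=
    map_mem _ (fun s hs => by
      rw [cap_single]
      refine single_mem ⟨?_, hs.2.sub fun x hx => List.mem_of_mem_drop hx⟩ _
      rw [List.length_drop, hs.1]) hz.1
  have hbcap : bd (cap 2 u z) = 0 := by
    refine bd_cap (q := 2) (n := 3) le_rfl
      (P := fun l : List N => l.length = 3 + 1 ∧ Fine univ (min δ r) l)
      (fun l hl => hl.1) (fun l hl => ?_) hz.1 hbz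
    refine hu _ ?_ ?_
    · rw [List.length_take, hl.1]
      rfl
    · have h3 := hl.2.sub fun x hx => List.mem_of_mem_take (i := 2 + 2) hx
      exact h3.mono subset_rfl (min_le_right _ _)
  obtain ⟨t, -, ε', hε', ht⟩ := hpd u hN hu fun f hf => by
    obtain ⟨φ, Θ, hφ⟩ := hup (Multiplicative (ZMod p)) (fun a b => Multiplicative.ofAdd (f [a, b]))
      fun a b d h1 h2 h3 => by
        have h4 := hf [a, b, d] rfl (fine_triple hε₁ h1 h2 h3)
        rw [dl_triple] at h4
        rw [← ofAdd_add]
        congr 1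
        linear_combination h4
    obtain ⟨α', β', hφ'⟩ := hom_eq hπ hR φ
    rw [ev_congr (P := fun l : List N => l.length = 2 ∧ Fine univ (min δ r) l)
      (g := fun l => α' * uX l + β' * uY l + dl (c1 fun a => -Multiplicative.toAdd (Θ a)) l)
      (fun l hl => ?_) hcap, ev_add_fun, ev_add_fun, ev_smul_fun, ev_smul_fun, hX', hY', ev_dl,
      hbcap, map_zero]
    · ring
    · obtain ⟨a, b, rfl⟩ := List.length_eq_two.1 hl.1
      have h1 := congrArg Multiplicative.toAdd
        (hφ a b ((hl.2.2 a (by simp) b (by simp)).trans_le (min_le_left _ _)))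
      rw [toAdd_ofAdd, toAdd_mul, toAdd_mul, toAdd_inv, hφ'] at h1
      rw [dl_pair, h1]
      show _ = α' * cX (π (c a b)) + β' * cY (π (c a b)) +
        (-Multiplicative.toAdd (Θ b) - -Multiplicative.toAdd (Θ a) + _ - _)
      ring
  obtain ⟨δ', hδ', hup'⟩ := hc.up (min ε' r) (lt_min hε' hc.pos)
  obtain ⟨φ, Θ, hφ⟩ := hup' (CExt (sig α β γ)) (fun a b => ⟨-t [a, b], π (c a b)⟩)
    fun a b d h1 h2 h3 => by
      have m1 := hc.mul a b d (h1.trans_le (min_le_right _ _)) (h2.trans_le (min_le_right _ _))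
        (h3.trans_le (min_le_right _ _))
      have h4 := ht [a, b, d] rfl (fine_triple hε' (h1.trans_le (min_le_left _ _))
        (h2.trans_le (min_le_left _ _)) (h3.trans_le (min_le_left _ _)))
      rw [dl_triple] at h4
      have h5 : (sig α β γ).f (π (c a b)) (π (c b d)) = t [b, d] - t [a, d] + t [a, b] := h4
      refine CExt.ext ?_ ?_
      · show -t [a, b] + -t [b, d] + (sig α β γ).f (π (c a b)) (π (c b d)) = -t [a, d]
        rw [h5]
        ring
      · show π (c a b) * π (c b d) = π (c a d)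
        rw [← map_mul, m1]
  have hχ := hc.uq (Sq p) (π / (CExt.pr _).comp φ) (fun a => CExt.pr _ (Θ a)) δ' hδ'
    fun a b hab => by
      have h1 := congrArg (CExt.pr (sig α β γ)) (hφ a b hab)
      rw [map_mul, map_mul, map_inv] at h1
      have h2 : π (c a b) = _ := h1
      rw [MonoidHom.div_apply, h2, MonoidHom.comp_apply, mul_right_comm, mul_div_cancel_right]
  refine h0 (sig_zero hπ hR φ fun h => ?_)
  have h1 := DFunLike.congr_fun hχ h
  rw [MonoidHom.div_apply, MonoidHom.one_apply, div_eq_one] at h1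
  exact h1.symm

end Vale.Agent.P216M
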